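import Vale.Agent.P157.RS.Sph.Norm

/-! The pure cavity system on the sphere. -/

open MeasureTheory ProbabilityTheory Set Filter
open scoped Topology
open Vale.Agent.P150 (gauss dot l1 l1_nonneg abs_le_l1 abs_dot_le integral_exp_mul_sq)
open Vale.Agent.P157.Lim

namespace Vale.Agent.P157.RS.Sph

set_option linter.unusedSectionVars false

variable {N : ℕ}

lemma unit_of (hN : 0 < N) (w : Fin N → ℝ) : ∃ e, dot e e = 1 ∧ w = fun i => √(dot w w) * e i := by
  rcases (dot_self_nonneg w).eq_or_lt with h | h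
  · refine ⟨e0 N, dot_e0 hN, funext fun i => ?_⟩
    have := (Finset.sum_eq_zero_iff_of_nonneg fun i _ => mul_self_nonneg (w i)).1 h.symm i (Finset.mem_univ i)
    rw [← h, Real.sqrt_zero, zero_mul]; exact mul_self_eq_zero.1 this
  · have hs : √(dot w w) ≠ 0 := (Real.sqrt_pos.2 h).ne'
    refine ⟨fun i => w i / √(dot w w), ?_, funext fun i => by field_simp⟩
    have : dot (fun i => w i / √(dot w w)) (fun i => w i / √(dot w w)) = dot w w / (√(dot w w) * √(dot w w)) := by
      simp only [dot, div_mul_div_comm, ← Finset.sum_div]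
    rw [this, Real.mul_self_sqrt h.le, div_self h.ne']

lemma dot_scale (e x : Fin N → ℝ) (s : ℝ) : dot (fun i => s * e i) x = s * dot e x := by
  simp [dot, Finset.mul_sum, mul_assoc]

lemma tilt_eq (hN : 2 ≤ N) (w : Fin N → ℝ) :
    ∫ x, Real.exp (dot w x) ∂dirLaw (Fin N) = mom N 0 √(dot w w) := by
  obtain ⟨e, he, hw⟩ := unit_of (show 0 < N by omega) w
  have e1 : ∀ x, dot w x = √(dot w w) * dot e x := fun x => by
    conv_lhs => rw [hw]
    exact dot_scale _ _ _
  simp only [mom, pow_zero, one_mul]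
  refine (integral_congr_ae (Eventually.of_forall fun x => congrArg Real.exp (e1 x))).trans ?_
  exact rotate he (dot_e0 (by omega)) (G := fun u => Real.exp (√(dot w w) * u)) (by fun_prop)

lemma integrable_exp_dot (hN : 0 < N) (w : Fin N → ℝ) :
    Integrable (fun x => Real.exp (dot w x)) (dirLaw (Fin N)) := by
  obtain ⟨e, he, hw⟩ := unit_of hN w
  have e1 : ∀ x, dot w x = √(dot w w) * dot e x := fun x => by
    conv_lhs => rw [hw]
    exact dot_scale _ _ _
  exact (integrable_coord (G := fun u => Real.exp (√(dot w w) * u)) hN he (by fun_prop)).congr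
    (Eventually.of_forall fun x => congrArg Real.exp (e1 x).symm)

lemma tilt_le (hN : 2 ≤ N) {e : Fin N → ℝ} (he : dot e e = 1) {a : ℝ} (ha : 0 ≤ a) (w : Fin N → ℝ) :
    ∫ x, Real.exp (dot (fun i => a * e i + w i) x) ∂dirLaw (Fin N) ≤
      mom N 0 a * Real.exp (mean N a * dot e w + dot w w / ((N:ℝ) - 1)) := by
  have hp : 0 < ∫ x, Real.exp (dot (fun i => a * e i + w i) x) ∂dirLaw (Fin N) :=
    integral_exp_pos (integrable_exp_dot (by omega) _)
  have h := (Real.log_le_iff_le_exp hp).1 (log_tilt_le hN he ha w)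
  rw [add_assoc, Real.exp_add, lam, Real.exp_log (mom_zero_pos hN a)] at h
  exact h

/-- two tilted replicas, linear statistic -/
lemma pair_linear (hN : 2 ≤ N) {e : Fin N → ℝ} (he : dot e e = 1) {a : ℝ} (ha : 0 ≤ a) (τ : ℝ) :
    ∫ x, ∫ x', Real.exp (τ * dot x x' + a * dot e x + a * dot e x') ∂dirLaw (Fin N) ∂dirLaw (Fin N) ≤
      mom N 0 a ^ 2 * Real.exp (τ * mean N a ^ 2 + 2 * τ ^ 2 / ((N:ℝ) - 1)) := by
  have hN0 : 0 < N := by omega
  have : Nonempty (Fin N) := ⟨⟨0, hN0⟩⟩
  set m := mean N a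
  set n := (N:ℝ) - 1
  have hn : 0 < n := by
    have : (2:ℝ) ≤ N := by exact_mod_cast hN
    simp only [n]; linarith
  have inner : ∀ x, dot x x = 1 → ∫ x', Real.exp (τ * dot x x' + a * dot e x + a * dot e x') ∂dirLaw (Fin N) ≤
      mom N 0 a * Real.exp (τ ^ 2 / n) * Real.exp ((a + τ * m) * dot e x) := by
    intro x hx
    have e1 : ∀ x', Real.exp (τ * dot x x' + a * dot e x + a * dot e x') =
        Real.exp (a * dot e x) * Real.exp (dot (fun i => a * e i + τ * x i) x') := fun x' => by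
      rw [← Real.exp_add]; congr 1
      simp only [dot, add_mul, Finset.sum_add_distrib, Finset.mul_sum, mul_assoc]; ring
    simp only [e1, integral_const_mul]
    refine (mul_le_mul_of_nonneg_left (tilt_le hN he ha fun i => τ * x i) (Real.exp_pos _).le).trans (le_of_eq ?_)
    have e2 : dot e (fun i => τ * x i) = τ * dot e x := by simp [dot, Finset.mul_sum]; congr; funext; ring
    have e3 : dot (fun i => τ * x i) (fun i => τ * x i) = τ ^ 2 := by
      have : dot (fun i => τ * x i) (fun i => τ * x i) = τ ^ 2 * dot x x := by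
        simp [dot, Finset.mul_sum]; congr; funext; ring
      rw [this, hx, mul_one]
    rw [e2, e3, mul_left_comm, mul_assoc (mom N 0 a), ← Real.exp_add, ← Real.exp_add]
    simp only [m, n]
    ring_nf
  have outer : ∫ x, Real.exp ((a + τ * m) * dot e x) ∂dirLaw (Fin N) ≤
      mom N 0 a * Real.exp (τ * m ^ 2 + τ ^ 2 / n) := by
    have e1 : ∀ x, (a + τ * m) * dot e x = dot (fun i => a * e i + τ * m * e i) x := fun x => by
      simp only [dot, add_mul, Finset.sum_add_distrib, Finset.mul_sum, mul_assoc]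
    simp only [e1]
    refine (tilt_le hN he ha fun i => τ * m * e i).trans (mul_le_mul_of_nonneg_left (Real.exp_le_exp.2 ?_)
      (mom_zero_pos hN a).le)
    have e2 : dot e (fun i => τ * m * e i) = τ * m * dot e e := by simp [dot, Finset.mul_sum]; congr; funext; ring
    have e3 : dot (fun i => τ * m * e i) (fun i => τ * m * e i) = τ ^ 2 * m ^ 2 * dot e e := by
      simp [dot, Finset.mul_sum]; congr; funext; ring
    rw [e2, e3, he]
    have hm1 : m ^ 2 ≤ 1 := by
      rw [← sq_abs]; exact pow_le_one₀ (abs_nonneg _) (abs_mean_le_one hN a)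
    have := div_le_div_of_nonneg_right (mul_le_of_le_one_right (sq_nonneg τ) hm1) hn.le
    exact add_le_add (le_of_eq (by simp only [m]; ring)) (le_trans (le_of_eq (by ring)) this)
  calc ∫ x, ∫ x', Real.exp (τ * dot x x' + a * dot e x + a * dot e x') ∂dirLaw (Fin N) ∂dirLaw (Fin N)
      ≤ ∫ x, mom N 0 a * Real.exp (τ ^ 2 / n) * Real.exp ((a + τ * m) * dot e x) ∂dirLaw (Fin N) :=
        integral_mono_of_nonneg (Eventually.of_forall fun x => integral_nonneg fun _ => (Real.exp_pos _).le)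
          ((integrable_coord (G := fun u => Real.exp ((a + τ * m) * u)) hN0 he (by fun_prop)).const_mul _)
          ((dirLaw_unit (ι := Fin N)).mono inner)
    _ ≤ mom N 0 a * Real.exp (τ ^ 2 / n) * (mom N 0 a * Real.exp (τ * m ^ 2 + τ ^ 2 / n)) := by
        rw [integral_const_mul]
        exact mul_le_mul_of_nonneg_left outer (mul_nonneg (mom_zero_pos hN a).le (Real.exp_pos _).le)
    _ = _ := by
        rw [mul_mul_mul_comm, ← Real.exp_add, ← sq]
        ring_nf

/-- weight of two replicas at exponential gap rate `l` -/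
noncomputable def pairW (l q a : ℝ) (e : Fin N → ℝ) (p : (Fin N → ℝ) × (Fin N → ℝ)) : ℝ :=
  Real.exp (l * (dot p.1 p.2 - q) ^ 2) * Real.exp (a * dot e p.1) * Real.exp (a * dot e p.2)

/-- two tilted replicas, exponential of the squared gap -/
lemma pair_square (hN : 2 ≤ N) {e : Fin N → ℝ} (he : dot e e = 1) {a : ℝ} (ha : 0 ≤ a) (q : ℝ) :
    Integrable (pairW ((N:ℝ) / 64) q a e) ((dirLaw (Fin N)).prod (dirLaw (Fin N))) ∧
    ∫ p, pairW ((N:ℝ) / 64) q a e p ∂(dirLaw (Fin N)).prod (dirLaw (Fin N)) ≤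
      mom N 0 a ^ 2 * (2 * Real.exp ((N:ℝ) / 16 * (mean N a ^ 2 - q) ^ 2)) := by
  have hN0 : 0 < N := by omega
  have : Nonempty (Fin N) := ⟨⟨0, hN0⟩⟩
  have hn : (0:ℝ) < (N:ℝ) - 1 := by
    have : (2:ℝ) ≤ N := by exact_mod_cast hN
    linarith
  set ν := dirLaw (Fin N)
  set l := (N:ℝ) / 64 with hl
  set s := √(2 * l)
  have hs : s * s = 2 * l := Real.mul_self_sqrt (by positivity)
  have hae : ∀ᵐ p ∂ν.prod ν, |dot p.1 p.2| ≤ 1 ∧ |dot e p.1| ≤ 1 ∧ |dot e p.2| ≤ 1 := by
    filter_upwards [measurePreserving_fst.quasiMeasurePreserving.ae (dirLaw_unit (ι := Fin N)),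
      measurePreserving_snd.quasiMeasurePreserving.ae (dirLaw_unit (ι := Fin N))] with p h1 h2
    refine ⟨?_, ?_, ?_⟩
    · have h := cauchy p.1 p.2; rwa [h1, h2, Real.sqrt_one, one_mul] at h
    · have h := cauchy e p.1; rwa [he, h1, Real.sqrt_one, one_mul] at h
    · have h := cauchy e p.2; rwa [he, h2, Real.sqrt_one, one_mul] at h
  set T := fun (z : ((Fin N → ℝ) × (Fin N → ℝ)) × ℝ) =>
    Real.exp (s * (dot z.1.1 z.1.2 - q) * z.2 + a * dot e z.1.1 + a * dot e z.1.2) with hT
  have hTc : Continuous T := by simp only [T]; unfold dot; fun_prop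
  have eT : ∀ p, pairW l q a e p = ∫ y, T (p, y) ∂gaussianReal 0 1 := fun p => by
    have h := congrFun (mgf_id_gaussianReal (μ := 0) (v := 1)) (s * (dot p.1 p.2 - q))
    simp only [mgf, id, NNReal.coe_one, zero_mul, zero_add, one_mul] at h
    simp only [T, pairW, Real.exp_add, integral_mul_const, h, mul_pow, sq s, hs]
    ring_nf
  set c := s * (1 + |q|)
  have hTi : Integrable T ((ν.prod ν).prod (gaussianReal 0 1)) := by
    refine ((((integrable_exp_mul_gaussianReal c).add (integrable_exp_mul_gaussianReal (-c))).comp_snd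
      (ν.prod ν)).const_mul (Real.exp (2 * a))).mono' hTc.aestronglyMeasurable ?_
    filter_upwards [measurePreserving_fst.quasiMeasurePreserving.ae hae] with z ⟨h1, h2, h3⟩
    simp only [Pi.add_apply, T, Real.norm_eq_abs, Real.abs_exp]
    have ha2 := mul_le_mul_of_nonneg_left (abs_le.1 h2).2 ha
    have ha3 := mul_le_mul_of_nonneg_left (abs_le.1 h3).2 ha
    have hlin : |s * (dot z.1.1 z.1.2 - q)| ≤ c := by
      rw [abs_mul, abs_of_nonneg (Real.sqrt_nonneg _)]
      exact mul_le_mul_of_nonneg_left ((abs_sub _ _).trans (by linarith)) (Real.sqrt_nonneg _)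
    have hy : s * (dot z.1.1 z.1.2 - q) * z.2 ≤ c * |z.2| := (le_abs_self _).trans (by
      rw [abs_mul]; exact mul_le_mul_of_nonneg_right hlin (abs_nonneg _))
    calc Real.exp (s * (dot z.1.1 z.1.2 - q) * z.2 + a * dot e z.1.1 + a * dot e z.1.2)
        ≤ Real.exp (2 * a) * Real.exp (c * |z.2|) := by
          rw [← Real.exp_add]; exact Real.exp_le_exp.2 (by linarith)
      _ ≤ _ := mul_le_mul_of_nonneg_left (exp_abs_le c z.2) (Real.exp_pos _).le
  refine ⟨hTi.integral_prod_left.congr (Eventually.of_forall fun p => (eT p).symm), ?_⟩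
  obtain ⟨h4, h4v⟩ := integral_exp_mul_sq (s := 1 / 4) (by norm_num)
  set β := s * (mean N a ^ 2 - q)
  calc ∫ p, pairW l q a e p ∂ν.prod ν = ∫ y, ∫ p, T (p, y) ∂ν.prod ν ∂gaussianReal 0 1 := by
        simp only [eT]; exact integral_integral_swap hTi
    _ ≤ ∫ y, mom N 0 a ^ 2 * Real.exp (2 * β ^ 2) * Real.exp (1 / 4 * y ^ 2) ∂gaussianReal 0 1 := by
        refine integral_mono_ae hTi.integral_prod_right (h4.const_mul _) ?_
        filter_upwards [hTi.prod_left_ae] with y hy
        rw [integral_prod _ hy]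
        have e1 : ∀ x x' : Fin N → ℝ, T ((x, x'), y) =
            Real.exp (-(s * q * y)) * Real.exp (s * y * dot x x' + a * dot e x + a * dot e x') := fun x x' => by
          simp only [T, ← Real.exp_add]; ring_nf
        simp only [e1, integral_const_mul]
        refine (mul_le_mul_of_nonneg_left (pair_linear hN he ha (s * y)) (Real.exp_pos _).le).trans ?_
        rw [mul_left_comm, ← Real.exp_add, mul_assoc (mom N 0 a ^ 2), ← Real.exp_add]
        refine mul_le_mul_of_nonneg_left (Real.exp_le_exp.2 ?_) (sq_nonneg _)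
        have h1 : 2 * (s * y) ^ 2 / ((N:ℝ) - 1) ≤ 1 / 8 * y ^ 2 := by
          rw [div_le_iff₀ hn, mul_pow, sq s, hs, hl]
          have : (2:ℝ) ≤ N := by exact_mod_cast hN
          nlinarith [sq_nonneg y]
        have h2 : β * y ≤ 2 * β ^ 2 + 1 / 8 * y ^ 2 := by nlinarith [sq_nonneg (4 * β - y)]
        simp only [β] at h2 ⊢
        linarith
    _ ≤ _ := by
        rw [integral_const_mul, h4v, mul_assoc]
        refine mul_le_mul_of_nonneg_left ?_ (sq_nonneg _)
        have e2 : 2 * β ^ 2 = (N:ℝ) / 16 * (mean N a ^ 2 - q) ^ 2 := by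
          simp only [β, mul_pow]; rw [sq s, hs, hl]; ring
        rw [e2, mul_comm]
        refine mul_le_mul_of_nonneg_right ?_ (Real.exp_pos _).le
        rw [inv_le_comm₀ (Real.sqrt_pos.2 (by norm_num)) two_pos]
        exact Real.le_sqrt_of_sq_le (by norm_num)

/-- spherical entropy-energy of one coordinate at overlap `q` -/
noncomputable def sphPhi (q : ℝ) : ℝ := q / (1 - q) + 1 / 2 * Real.log (1 - q)

/-- the tilted mean near the saddle -/
lemma mean_near (hN : 2 ≤ N) {q rb : ℝ} (hq0 : 0 ≤ q) (hq1 : q < 1) (hrb : √q = √rb * (1 - q)) {a : ℝ}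
    (ha : 0 ≤ a) :
    |mean N a - √q| ≤ 3 * |a / ((N:ℝ) - 1) - √rb| + 2 * √rb / ((N:ℝ) - 1) := by
  have hn : (1:ℝ) ≤ (N:ℝ) - 1 := by
    have : (2:ℝ) ≤ N := by exact_mod_cast hN
    linarith
  set n := (N:ℝ) - 1
  set ρ := a / n
  have hρ : 0 ≤ ρ := div_nonneg ha (by linarith)
  have h1 := (var_bound hN ha).2.2
  have h2 := saddle_dist (Real.sqrt_nonneg rb) (cf_nonneg hρ) (Real.sqrt_nonneg q) hρ (cf_spec ρ)
    (show √rb * (1 - √q ^ 2) = √q by rw [Real.sq_sqrt hq0]; linarith)
  have h3 : ρ * (2 / n) ≤ 2 * |ρ - √rb| + 2 * √rb / n := by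
    have a1 : ρ ≤ |ρ - √rb| + √rb := by linarith [le_abs_self (ρ - √rb)]
    have a2 := mul_le_mul_of_nonneg_right a1 (show 0 ≤ 2 / n by positivity)
    have a3 : |ρ - √rb| * (2 / n) ≤ |ρ - √rb| * 2 :=
      mul_le_mul_of_nonneg_left (div_le_self zero_le_two hn) (abs_nonneg _)
    rw [add_mul] at a2
    rw [show 2 * √rb / n = √rb * (2 / n) by ring]
    linarith
  linarith [abs_sub_le (mean N a) (cf ρ) √q]

end Vale.Agent.P157.RS.Sph
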