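import Vale.Agent.P157.RS.Limit
import Vale.Agent.P157.Lim.Sphere

/-! Rotation invariance and integration by parts for the uniform law on the unit sphere. -/

open MeasureTheory ProbabilityTheory Set Filter
open scoped Topology
open Vale.Agent.P150 (gauss dot l1 l1_nonneg abs_le_l1 gauss_ibp integrable_of_bound)
open Vale.Agent.P157.Lim

namespace Vale.Agent.P157.RS.Sph

set_option linter.unusedSectionVars false

variable {N : ℕ}

lemma dot_self_nonneg (z : Fin N → ℝ) : 0 ≤ dot z z := Finset.sum_nonneg fun i _ => mul_self_nonneg (z i)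

lemma cauchy (e z : Fin N → ℝ) : |dot e z| ≤ √(dot e e) * √(dot z z) := by
  have h := Finset.sum_mul_sq_le_sq_mul_sq Finset.univ e z
  rw [← Real.sqrt_mul (dot_self_nonneg e)]
  refine Real.abs_le_sqrt ?_
  simp only [dot]
  simpa [sq] using h

lemma sqrt_dot_le_l1 (z : Fin N → ℝ) : √(dot z z) ≤ l1 z := by
  rw [Real.sqrt_le_left (l1_nonneg z), sq]
  unfold dot
  calc ∑ i, z i * z i ≤ ∑ i, l1 z * |z i| := Finset.sum_le_sum fun i _ => by
        rw [← abs_mul_abs_self]; exact mul_le_mul_of_nonneg_right (abs_le_l1 z i) (abs_nonneg _)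
    _ = l1 z * l1 z := by rw [← Finset.mul_sum]; rfl

/-- regularised length -/
noncomputable def len (ε : ℝ) (z : Fin N → ℝ) : ℝ := √(dot z z + ε)

/-- regularised coordinate -/
noncomputable def coord (ε : ℝ) (e z : Fin N → ℝ) : ℝ := dot e z / len ε z

lemma len_pos {ε : ℝ} (hε : 0 < ε) (z : Fin N → ℝ) : 0 < len ε z :=
  Real.sqrt_pos.2 (by linarith [dot_self_nonneg z])

lemma len_le {ε : ℝ} (hε : 0 ≤ ε) (z : Fin N → ℝ) : len ε z ≤ √(dot z z) + √ε := by
  rw [len, Real.sqrt_le_left (add_nonneg (Real.sqrt_nonneg _) (Real.sqrt_nonneg _)), add_sq,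
    Real.sq_sqrt (dot_self_nonneg z), Real.sq_sqrt hε]
  linarith [mul_nonneg (mul_nonneg zero_le_two (Real.sqrt_nonneg (dot z z))) (Real.sqrt_nonneg ε)]

lemma abs_coord {ε : ℝ} (hε : 0 < ε) {e : Fin N → ℝ} (he : dot e e = 1) (z : Fin N → ℝ) :
    |coord ε e z| ≤ 1 := by
  rw [coord, abs_div, abs_of_pos (len_pos hε z), div_le_one (len_pos hε z)]
  have h := cauchy e z
  rw [he, Real.sqrt_one, one_mul] at h
  exact h.trans (Real.sqrt_le_sqrt (by linarith))

lemma continuous_len (ε : ℝ) : Continuous (len ε : (Fin N → ℝ) → ℝ) := by unfold len dot; fun_prop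

lemma continuous_coord {ε : ℝ} (hε : 0 < ε) (e : Fin N → ℝ) : Continuous (coord ε e) :=
  Continuous.div (by unfold dot; fun_prop) (continuous_len ε) fun z => (len_pos hε z).ne'

lemma abs_dot_nd {e : Fin N → ℝ} (he : dot e e = 1) (z : Fin N → ℝ) : |dot e (nd z)| ≤ 1 := by
  have h := cauchy e z
  rw [he, Real.sqrt_one, one_mul] at h
  have hd : dot e (nd z) = (√(dot z z))⁻¹ * dot e z := by
    simp only [nd, dot, Pi.smul_apply, smul_eq_mul, Finset.mul_sum]
    exact Finset.sum_congr rfl fun i _ => by ring
  rw [hd, abs_mul, abs_inv, abs_of_nonneg (Real.sqrt_nonneg _)]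
  exact inv_mul_le_one_of_le₀ h (Real.sqrt_nonneg _)

lemma dot_nd (e z : Fin N → ℝ) : √(dot z z) * dot e (nd z) = dot e z := by
  rcases (dot_self_nonneg z).eq_or_lt with h | h
  · have hz : z = 0 := funext fun i => mul_self_eq_zero.1
      ((Finset.sum_eq_zero_iff_of_nonneg fun i _ => mul_self_nonneg (z i)).1 h.symm i (Finset.mem_univ i))
    simp [hz, dot, nd]
  · simp only [nd, dot, Pi.smul_apply, smul_eq_mul, Finset.mul_sum]
    refine Finset.sum_congr rfl fun i _ => ?_
    have : √(∑ i, z i * z i) ≠ 0 := (Real.sqrt_pos.2 h).ne'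
    calc √(∑ i, z i * z i) * (e i * ((√(∑ i, z i * z i))⁻¹ * z i))
        = (√(∑ i, z i * z i) * (√(∑ i, z i * z i))⁻¹) * (e i * z i) := by ring
      _ = _ := by rw [mul_inv_cancel₀ this, one_mul]

lemma tendsto_coord (e z : Fin N → ℝ) :
    Tendsto (fun n : ℕ => coord (1 / ((n:ℝ) + 1)) e z) atTop (𝓝 (dot e (nd z))) := by
  rcases (dot_self_nonneg z).eq_or_lt with h | h
  · have hz : z = 0 := funext fun i => mul_self_eq_zero.1
      ((Finset.sum_eq_zero_iff_of_nonneg fun i _ => mul_self_nonneg (z i)).1 h.symm i (Finset.mem_univ i))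
    simp [hz, coord, dot, nd]
  · have hd : dot e (nd z) = dot e z / √(dot z z + 0) := by
      rw [add_zero, eq_div_iff (Real.sqrt_pos.2 h).ne', mul_comm, dot_nd]
    rw [hd]
    refine tendsto_const_nhds.div (((Real.continuous_sqrt).tendsto _).comp
      (tendsto_const_nhds.add tendsto_one_div_add_atTop_nhds_zero_nat)) ?_
    simpa using (Real.sqrt_pos.2 h).ne'

/-- the law of one coordinate -/
lemma tendsto_integral_coord {e : Fin N → ℝ} (he : dot e e = 1) {G : ℝ → ℝ} (hG : Continuous G) :
    Tendsto (fun n : ℕ => ∫ z, G (coord (1 / ((n:ℝ) + 1)) e z) ∂gauss (Fin N)) atTop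
      (𝓝 (∫ x, G (dot e x) ∂dirLaw (Fin N))) := by
  obtain ⟨C, hC⟩ := (isCompact_Icc (a := (-1:ℝ)) (b := 1)).exists_bound_of_continuousOn hG.continuousOn
  have hc : Continuous fun x : Fin N → ℝ => G (dot e x) := hG.comp (by unfold dot; fun_prop)
  rw [dirLaw, integral_map measurable_nd.aemeasurable hc.aestronglyMeasurable]
  exact tendsto_integral_of_dominated_convergence (fun _ => C)
    (fun n => (hG.comp (continuous_coord (by positivity) e)).aestronglyMeasurable) (integrable_const _)
    (fun n => Eventually.of_forall fun z => hC _ (abs_le.1 (abs_coord (by positivity) he z)))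
    (Eventually.of_forall fun z => (hG.tendsto _).comp (tendsto_coord e z))

/-- rotation invariance of one coordinate -/
lemma rotate {e e' : Fin N → ℝ} (he : dot e e = 1) (he' : dot e' e' = 1) {G : ℝ → ℝ} (hG : Continuous G) :
    ∫ x, G (dot e x) ∂dirLaw (Fin N) = ∫ x, G (dot e' x) ∂dirLaw (Fin N) := by
  rcases eq_or_ne e e' with rfl | hne
  · rfl
  refine tendsto_nhds_unique (tendsto_integral_coord he hG) ?_
  refine (tendsto_integral_coord he' hG).congr fun n => ?_
  set ε := 1 / ((n:ℝ) + 1)
  have hε : 0 < ε := by positivity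
  set w := fun i => e i - e' i with hwdef
  have hw : 0 < dot w w := by
    refine lt_of_le_of_ne (dot_self_nonneg w) fun h => hne (funext fun i => ?_)
    have := (Finset.sum_eq_zero_iff_of_nonneg fun i _ => mul_self_nonneg (w i)).1 h.symm i (Finset.mem_univ i)
    simpa [w, sub_eq_zero] using this
  have hwe : 2 * dot w e = dot w w := by
    have a : dot w w = dot e e - 2 * dot e e' + dot e' e' := by
      simp only [dot, w, Finset.mul_sum, ← Finset.sum_add_distrib, ← Finset.sum_sub_distrib]
      exact Finset.sum_congr rfl fun i _ => by ring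
    have b : dot w e = dot e e - dot e e' := by
      simp only [dot, w, ← Finset.sum_sub_distrib]
      exact Finset.sum_congr rfl fun i _ => by ring
    rw [a, b, he, he']; ring
  set R : (Fin N → ℝ) → Fin N → ℝ := fun z i => z i - 2 * dot w z / dot w w * w i with hR
  have hRdot : ∀ a b, dot (R a) b = dot a (R b) := fun a b => by
    simp only [hR, dot, sub_mul, mul_sub, Finset.sum_sub_distrib, div_mul_eq_mul_div, mul_div_assoc,
      Finset.mul_sum, Finset.sum_mul, Finset.sum_div]
    congr 1
    rw [Finset.sum_comm]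
    exact Finset.sum_congr rfl fun i _ => Finset.sum_congr rfl fun j _ => by ring
  have hRR : ∀ a, R (R a) = a := fun a => by
    have hwR : dot w (R a) = -dot w a := by
      have : dot w (R a) = dot w a - 2 * dot w a / dot w w * dot w w := by
        simp only [hR, dot, mul_sub, Finset.sum_sub_distrib, Finset.mul_sum]
        congr 1
        exact Finset.sum_congr rfl fun i _ => by ring
      rw [this]; field_simp; ring
    funext i
    show R a i - 2 * dot w (R a) / dot w w * w i = a i
    rw [hwR]; simp only [hR]; ring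
  have hRe : R e = e' := funext fun i => by
    simp only [hR]; rw [hwe, div_self hw.ne', one_mul]; simp [w]
  have h1 : ∀ s (g : Fin N → ℝ), dot (Pi.single s (1:ℝ)) g = g s := fun s g => by simp [dot, Pi.single_apply]
  have key := law_eq (fun s : Fin N => (Pi.single s (1:ℝ) : Fin N → ℝ)) (fun s => R (Pi.single s 1))
    (fun u v => by rw [hRdot, hRR]) (F := fun z => G (coord ε e z))
    (hG.comp (continuous_coord hε e))
  have h2 : ∀ g, (fun s => dot (R (Pi.single s (1:ℝ))) g) = R g := fun g => funext fun s => by rw [hRdot, h1]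
  simp only [h1, h2] at key
  rw [key]
  refine integral_congr_ae (Eventually.of_forall fun g => congrArg G ?_)
  simp only [coord, len]
  rw [← hRdot, hRe, hRdot g (R g), hRR]

/-- integration by parts on the sphere -/
lemma stein {e : Fin N → ℝ} (hN : 0 < N) (he : dot e e = 1) {G G' : ℝ → ℝ} (hd : ∀ u, HasDerivAt G (G' u) u)
    (hG' : Continuous G') :
    (N:ℝ) * ∫ x, dot e x * G (dot e x) ∂dirLaw (Fin N) =
      ∫ x, (dot e x * G (dot e x) + (1 - dot e x ^ 2) * G' (dot e x)) ∂dirLaw (Fin N) := by
  have hG : Continuous G := continuous_iff_continuousAt.2 fun u => (hd u).continuousAt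
  obtain ⟨C, hC⟩ := (isCompact_Icc (a := (-1:ℝ)) (b := 1)).exists_bound_of_continuousOn hG.continuousOn
  obtain ⟨C', hC'⟩ := (isCompact_Icc (a := (-1:ℝ)) (b := 1)).exists_bound_of_continuousOn hG'.continuousOn
  have hC0 : 0 ≤ C := (norm_nonneg _).trans (hC 0 ⟨by norm_num, by norm_num⟩)
  have hC0' : 0 ≤ C' := (norm_nonneg _).trans (hC' 0 ⟨by norm_num, by norm_num⟩)
  have hek : ∀ k, |e k| ≤ 1 := fun k => by
    rw [← sq_le_one_iff_abs_le_one, sq]
    exact le_of_le_of_eq (Finset.single_le_sum (f := fun i => e i * e i) (fun i _ => mul_self_nonneg _)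
      (Finset.mem_univ k)) he
  -- regularised identity
  have reg : ∀ ε : ℝ, 0 < ε → ε ≤ 1 →
      ∫ z, dot e z * (len ε z * G (coord ε e z)) ∂gauss (Fin N) =
        ∫ z, (coord ε e z * G (coord ε e z) + (1 - coord ε e z ^ 2) * G' (coord ε e z)) ∂gauss (Fin N) := by
    intro ε hε hε1
    set φ := fun z => len ε z * G (coord ε e z)
    set φ' := fun (k : Fin N) (z : Fin N → ℝ) =>
      z k / len ε z * G (coord ε e z) + G' (coord ε e z) * (e k - coord ε e z * (z k / len ε z))
    have hzk : ∀ (k : Fin N) (z : Fin N → ℝ), |z k / len ε z| ≤ 1 := fun k z => by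
      rw [abs_div, abs_of_pos (len_pos hε z), div_le_one (len_pos hε z)]
      refine Real.abs_le_sqrt ?_
      have : z k * z k ≤ dot z z :=
        Finset.single_le_sum (f := fun i => z i * z i) (fun i _ => mul_self_nonneg _) (Finset.mem_univ k)
      rw [sq]; linarith
    have cφ : Continuous φ := (continuous_len ε).mul (hG.comp (continuous_coord hε e))
    have cφ' : ∀ k, Continuous (φ' k) := fun k =>
      have hq : Continuous fun z : Fin N → ℝ => z k / len ε z :=
        (continuous_apply k).div (continuous_len ε) fun z => (len_pos hε z).ne'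
      (hq.mul (hG.comp (continuous_coord hε e))).add ((hG'.comp (continuous_coord hε e)).mul
        (continuous_const.sub ((continuous_coord hε e).mul hq)))
    have bφ : ∀ z, |φ z| ≤ (2 * C + 2 * C') * Real.exp (1 * l1 z) := fun z => by
      rw [abs_mul, abs_of_pos (len_pos hε z)]
      have h1 : len ε z ≤ Real.exp (1 * l1 z) := by
        have := Real.add_one_le_exp (1 * l1 z)
        have := sqrt_dot_le_l1 z
        have := Real.sqrt_le_one.2 hε1
        linarith [len_le hε.le z]
      rw [mul_comm]
      exact mul_le_mul ((hC _ (abs_le.1 (abs_coord hε he z))).trans (by linarith)) h1 (len_pos hε z).le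
        (by positivity)
    have bφ' : ∀ k z, |φ' k z| ≤ (2 * C + 2 * C') * Real.exp (1 * l1 z) := fun k z => by
      refine le_trans ?_ (le_mul_of_one_le_right (by positivity)
        (Real.one_le_exp (by linarith [l1_nonneg z])))
      refine (abs_add_le _ _).trans ?_
      rw [abs_mul, abs_mul]
      have a := mul_le_mul (hzk k z) (hC _ (abs_le.1 (abs_coord hε he z))) (abs_nonneg _) zero_le_one
      have b : |e k - coord ε e z * (z k / len ε z)| ≤ 2 := by
        refine (abs_sub _ _).trans ?_
        rw [abs_mul]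
        linarith [hek k, mul_le_one₀ (abs_coord hε he z) (abs_nonneg _) (hzk k z)]
      have c := mul_le_mul (hC' _ (abs_le.1 (abs_coord hε he z))) b (abs_nonneg _) hC0'
      simp only [Real.norm_eq_abs] at a c
      linarith
    have hibp : ∀ k, ∫ z, z k * φ z ∂gauss (Fin N) = ∫ z, φ' k z ∂gauss (Fin N) := fun k => by
      refine gauss_ibp k zero_le_one cφ (cφ' k) bφ (bφ' k) fun z t => ?_
      set w := Function.update z k t with hw
      have hu : ∀ i, HasDerivAt (fun s => Function.update z k s i) ((Pi.single k (1:ℝ) : Fin N → ℝ) i) t :=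
        fun i => hasDerivAt_pi.1 (hasDerivAt_update z k t) i
      have d1 : HasDerivAt (fun s => dot e (Function.update z k s)) (e k) t := by
        refine (HasDerivAt.fun_sum (u := Finset.univ) fun i _ => (hu i).const_mul (e i)).congr_deriv ?_
        simp [Pi.single_apply]
      have d2 : HasDerivAt (fun s => dot (Function.update z k s) (Function.update z k s) + ε) (2 * w k) t := by
        refine ((HasDerivAt.fun_sum (u := Finset.univ) fun i _ => (hu i).mul (hu i)).add_const ε).congr_deriv ?_
        refine (Finset.sum_congr rfl fun i _ => show _ = if i = k then 2 * w k else 0 from ?_).trans (by simp)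
        rcases eq_or_ne i k with rfl | hik
        · simp [hw]; ring
        · simp [hik]
      have hp : dot w w + ε ≠ 0 := by linarith [dot_self_nonneg w]
      have d3 : HasDerivAt (fun s => len ε (Function.update z k s)) (w k / len ε w) t :=
        (d2.sqrt hp).congr_deriv (by rw [show √(dot w w + ε) = len ε w from rfl]; field_simp)
      have d4 : HasDerivAt (fun s => coord ε e (Function.update z k s))
          ((e k - coord ε e w * (w k / len ε w)) / len ε w) t :=
        (d1.div d3 (len_pos hε w).ne').congr_deriv (by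
          show (e k * len ε w - dot e w * (w k / len ε w)) / len ε w ^ 2 = _
          have := (len_pos hε w).ne'
          simp only [coord]; field_simp)
      refine (d3.mul ((hd (coord ε e w)).comp t d4)).congr_deriv ?_
      show w k / len ε w * G (coord ε e w) +
        len ε w * (G' (coord ε e w) * ((e k - coord ε e w * (w k / len ε w)) / len ε w)) = φ' k w
      have := (len_pos hε w).ne'
      simp only [φ']; field_simp
    have i1 : ∀ k, Integrable (fun z => z k * φ z) (gauss (Fin N)) := fun k =>
      integrable_of_bound (C := 2 * C + 2 * C') (M := 2) ((continuous_apply k).mul cφ) fun z => by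
        rw [abs_mul, two_mul (l1 z), Real.exp_add, mul_left_comm]
        refine mul_le_mul ?_ ((bφ z).trans (le_of_eq (by rw [one_mul]))) (abs_nonneg _) (Real.exp_pos _).le
        linarith [abs_le_l1 z k, Real.add_one_le_exp (l1 z)]
    have i2 : ∀ k, Integrable (φ' k) (gauss (Fin N)) := fun k => integrable_of_bound (cφ' k) (bφ' k)
    calc ∫ z, dot e z * φ z ∂gauss (Fin N) = ∫ z, ∑ k, e k * (z k * φ z) ∂gauss (Fin N) := by
          simp only [dot, Finset.sum_mul, mul_assoc]
      _ = ∫ z, ∑ k, e k * φ' k z ∂gauss (Fin N) := by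
          rw [integral_finsetSum _ fun k _ => (i1 k).const_mul _, integral_finsetSum _ fun k _ => (i2 k).const_mul _]
          simp only [integral_const_mul, hibp]
      _ = _ := integral_congr_ae (Eventually.of_forall fun z => by
          have e1 : ∑ k, e k * (z k / len ε z) = coord ε e z := by
            simp only [coord, dot, Finset.sum_div, mul_div_assoc]
          have e2 : ∑ k, e k * φ' k z = (∑ k, e k * (z k / len ε z)) * G (coord ε e z) +
              G' (coord ε e z) * ((∑ k, e k * e k) - coord ε e z * ∑ k, e k * (z k / len ε z)) := by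
            simp only [φ', Finset.sum_mul, Finset.mul_sum, ← Finset.sum_sub_distrib, ← Finset.sum_add_distrib]
            exact Finset.sum_congr rfl fun k _ => by ring
          show ∑ k, e k * φ' k z = _
          rw [e2, e1, show ∑ k, e k * e k = 1 from he]
          ring)
  -- remove the regularisation
  set H := fun u : ℝ => u * G u + (1 - u ^ 2) * G' u
  have hH : Continuous H := (continuous_id.mul hG).add ((continuous_const.sub (continuous_id.pow 2)).mul hG')
  have rhs : Tendsto (fun n : ℕ => ∫ z, H (coord (1 / ((n:ℝ) + 1)) e z) ∂gauss (Fin N)) atTop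
      (𝓝 (∫ x, H (dot e x) ∂dirLaw (Fin N))) := tendsto_integral_coord he hH
  have lhs : Tendsto (fun n : ℕ => ∫ z, dot e z * (len (1 / ((n:ℝ) + 1)) z * G (coord (1 / ((n:ℝ) + 1)) e z))
      ∂gauss (Fin N)) atTop (𝓝 (∫ z, dot z z * (dot e (nd z) * G (dot e (nd z))) ∂gauss (Fin N))) := by
    refine tendsto_integral_of_dominated_convergence (fun z => C * Real.exp (2 * l1 z))
      (fun n => ((by unfold dot; fun_prop : Continuous fun z : Fin N → ℝ => dot e z).mul ((continuous_len _).mul
        (hG.comp (continuous_coord (by positivity) e)))).aestronglyMeasurable)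
      ((Vale.Agent.P150.integrable_exp_l1 2).const_mul C)
      (fun n => Eventually.of_forall fun z => ?_) (Eventually.of_forall fun z => ?_)
    · have hn : (0:ℝ) < 1 / ((n:ℝ) + 1) := by positivity
      have hn1 : 1 / ((n:ℝ) + 1) ≤ 1 := div_le_one_of_le₀ (by linarith [Nat.cast_nonneg (α := ℝ) n]) (by positivity)
      have a : |dot e z| ≤ Real.exp (l1 z) := by
        have := cauchy e z
        rw [he, Real.sqrt_one, one_mul] at this
        linarith [sqrt_dot_le_l1 z, Real.add_one_le_exp (l1 z)]
      have b : len (1 / ((n:ℝ) + 1)) z ≤ Real.exp (l1 z) := by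
        linarith [len_le hn.le z, sqrt_dot_le_l1 z, Real.add_one_le_exp (l1 z), Real.sqrt_le_one.2 hn1]
      rw [Real.norm_eq_abs, abs_mul, abs_mul, abs_of_pos (len_pos hn z), two_mul, Real.exp_add]
      calc |dot e z| * (len (1 / ((n:ℝ) + 1)) z * |G (coord (1 / ((n:ℝ) + 1)) e z)|)
          ≤ Real.exp (l1 z) * (Real.exp (l1 z) * C) :=
            mul_le_mul a (mul_le_mul b (hC _ (abs_le.1 (abs_coord hn he z))) (abs_nonneg _) (Real.exp_pos _).le)
              (mul_nonneg (len_pos hn z).le (abs_nonneg _)) (Real.exp_pos _).le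
        _ = _ := by ring
    · have hl : Tendsto (fun n : ℕ => len (1 / ((n:ℝ) + 1)) z) atTop (𝓝 (√(dot z z + 0))) :=
        ((Real.continuous_sqrt).tendsto _).comp (tendsto_const_nhds.add tendsto_one_div_add_atTop_nhds_zero_nat)
      rw [add_zero] at hl
      have h := (tendsto_const_nhds (x := dot e z)).mul (hl.mul ((hG.tendsto _).comp (tendsto_coord e z)))
      refine (le_of_eq ?_).trans' h
      congr 1
      rw [← dot_nd e z]
      linear_combination dot e (nd z) * G (dot e (nd z)) * Real.mul_self_sqrt (dot_self_nonneg z)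
  have hind : ∫ z, dot z z * (dot e (nd z) * G (dot e (nd z))) ∂gauss (Fin N) =
      (N:ℝ) * ∫ x, dot e x * G (dot e x) ∂dirLaw (Fin N) := by
    have hm : Measurable fun z : Fin N → ℝ => (nd z, √(dot z z)) := measurable_nd.prodMk measurable_rad
    have hc : Continuous fun p : (Fin N → ℝ) × ℝ => (dot e p.1 * G (dot e p.1)) * p.2 ^ 2 :=
      (((by unfold dot; fun_prop : Continuous fun p : (Fin N → ℝ) × ℝ => dot e p.1)).mul
        (hG.comp (by unfold dot; fun_prop))).mul (by fun_prop)
    calc ∫ z, dot z z * (dot e (nd z) * G (dot e (nd z))) ∂gauss (Fin N)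
        = ∫ z, (dot e (nd z) * G (dot e (nd z))) * √(dot z z) ^ 2 ∂gauss (Fin N) :=
          integral_congr_ae (Eventually.of_forall fun z => by
            dsimp only
            rw [Real.sq_sqrt (dot_self_nonneg z)]; ring)
      _ = ∫ p, (dot e p.1 * G (dot e p.1)) * p.2 ^ 2 ∂(dirLaw (Fin N)).prod (radLaw (Fin N)) := by
          rw [← dirLaw_indep N hN, integral_map hm.aemeasurable hc.aestronglyMeasurable]
      _ = (∫ x, dot e x * G (dot e x) ∂dirLaw (Fin N)) * ∫ r, r ^ 2 ∂radLaw (Fin N) :=
          integral_prod_mul (fun x => dot e x * G (dot e x)) fun r => r ^ 2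
      _ = _ := by
          rw [mul_comm, radLaw, integral_map measurable_rad.aemeasurable (by fun_prop)]
          congr 1
          have hsq : ∀ z : Fin N → ℝ, √(dot z z) ^ 2 = dot z z := fun z => Real.sq_sqrt (dot_self_nonneg z)
          simp only [hsq]
          simp only [dot]
          have hz : Integrable (fun t : ℝ => t * t) (gaussianReal 0 1) :=
            ((memLp_id_gaussianReal 2).integrable_sq).congr (Eventually.of_forall fun t => by simp [sq])
          have hI : ∀ i : Fin N, Integrable (fun z : Fin N → ℝ => z i * z i) (gauss (Fin N)) := fun i =>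
            integrable_comp_eval (μ := fun _ : Fin N => gaussianReal 0 1) (i := i) hz
          rw [integral_finsetSum _ fun i _ => hI i]
          have h1 : ∀ i : Fin N, ∫ z, z i * z i ∂gauss (Fin N) = 1 := fun i => by
            rw [gauss, integral_comp_eval (μ := fun _ : Fin N => gaussianReal 0 1) (i := i)
              (f := fun t : ℝ => t * t) (by fun_prop)]
            have := variance_id_gaussianReal (μ := 0) (v := 1)
            rw [variance_eq_integral (by fun_prop)] at this
            simpa [sq] using this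
          simp [h1]
  rw [← hind]
  exact tendsto_nhds_unique (lhs.congr fun n => reg _ (by positivity)
    (div_le_one_of_le₀ (by linarith [Nat.cast_nonneg (α := ℝ) n]) (by positivity))) rhs

end Vale.Agent.P157.RS.Sph
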