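import Vale.Agent.P157.RS.Sph.End

/-! The replica-symmetric limit of the pressure on the sphere. -/

open MeasureTheory ProbabilityTheory Set Filter
open scoped Topology
open Vale.Agent.P150 (gauss dot l1 l1_nonneg abs_le_l1 abs_dot_le integrable_of_bound)
open Vale.Agent.P157.Lim

namespace Vale.Agent.P157.RS.Sph

set_option linter.unusedSectionVars false

lemma l1_le {N : ℕ} (h : Fin N → ℝ) : l1 h ≤ 3 * N + 2 * dev N h ^ 2 := by
  have a : l1 h ≤ N + dot h h := by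
    have e : (N:ℝ) + dot h h = ∑ k : Fin N, (1 + h k * h k) := by simp [dot, Finset.sum_add_distrib]
    rw [e, l1]
    exact Finset.sum_le_sum fun k _ => by nlinarith [sq_nonneg (|h k| - 1), abs_mul_abs_self (h k)]
  have b := Real.sq_sqrt (dot_self_nonneg h)
  have c := Real.sq_sqrt (Nat.cast_nonneg (α := ℝ) N)
  simp only [dev]
  nlinarith [sq_nonneg (√(dot h h) - 2 * √(N:ℝ))]

lemma integral_abs_dev {N : ℕ} (hN : 0 < N) :
    Integrable (fun h => |dev N h|) (gauss (Fin N)) ∧ ∫ h, |dev N h| ∂gauss (Fin N) ≤ 2 * Real.exp 2 + 2 := by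
  obtain ⟨hi, hb⟩ := dev_moment hN
  have hle : ∀ h, |dev N h| ≤ Real.exp (dev N h ^ 2 / 8) + 2 := fun h => by
    have := Real.add_one_le_exp (dev N h ^ 2 / 8)
    nlinarith [sq_nonneg (|dev N h| - 4), sq_abs (dev N h)]
  have hint : Integrable (fun h => |dev N h|) (gauss (Fin N)) :=
    (hi.add (integrable_const 2)).mono' continuous_dev.abs.aestronglyMeasurable
      (Eventually.of_forall fun h => by rw [Real.norm_eq_abs, abs_abs]; exact hle h)
  refine ⟨hint, (integral_mono hint (hi.add (integrable_const 2)) hle).trans ?_⟩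
  rw [integral_add' hi (integrable_const 2)]
  simp; linarith

/-- constant in the endpoint bounds -/
noncomputable def endC (κ : ℝ) : ℝ := 4 * Real.exp 4 * Real.exp ((3 * κ + 2) ^ 2)

/-- the discretised unit sphere stays bounded -/
lemma close_ae {N : ℕ} (hN : 2 ≤ N) {Y : (Fin N → ℝ) → Fin N → ℝ} {η : ℝ} (hη1 : η ≤ 1)
    (hYd : ∀ᵐ z ∂dirLaw (Fin N), ∀ k, |z k - Y z k| ≤ η) :
    ∀ᵐ z ∂dirLaw (Fin N), dot z z = 1 ∧ (∀ k, |z k| ≤ 1) ∧ (∀ k, |Y z k| ≤ 2) ∧ ∀ k, |z k - Y z k| ≤ η := by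
  have : Nonempty (Fin N) := ⟨⟨0, by omega⟩⟩
  filter_upwards [dirLaw_unit (ι := Fin N), hYd] with z h1 h2
  have hz : ∀ k, |z k| ≤ 1 := fun k => by
    rw [← sq_le_one_iff_abs_le_one, sq]
    exact le_of_le_of_eq (Finset.single_le_sum (f := fun i => z i * z i) (fun i _ => mul_self_nonneg _)
      (Finset.mem_univ k)) h1
  refine ⟨h1, hz, fun k => ?_, h2⟩
  linarith [abs_sub_abs_le_abs_sub (Y z k) (z k), abs_sub_comm (Y z k) (z k), h2 k, hz k]

lemma lin_close {N : ℕ} {sv η : ℝ} (hsv : 0 ≤ sv) {y z : Fin N → ℝ} (hz : ∀ k, |z k - y k| ≤ η)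
    (h : Fin N → ℝ) : |sv * dot y h - sv * dot z h| ≤ sv * η * l1 h := by
  have e : dot y h - dot z h = dot (fun k => y k - z k) h := by simp [dot, sub_mul, Finset.sum_sub_distrib]
  rw [← mul_sub, e, abs_mul, abs_of_nonneg hsv, mul_assoc]
  exact mul_le_mul_of_nonneg_left (abs_dot_le (fun k => by rw [abs_sub_comm]; exact hz k) h) hsv

lemma tol_le {N : ℕ} (hN : 2 ≤ N) {sv η : ℝ} (hsv : 0 ≤ sv) (hsvN : sv ≤ N) (hη : 0 ≤ η)
    (hη' : η ≤ 1 / (256 * (N:ℝ) ^ 2)) (h : Fin N → ℝ) :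
    4 * (sv * η * l1 h) ≤ 1 + dev N h ^ 2 / 16 := by
  have hN2 : (2:ℝ) ≤ N := by exact_mod_cast hN
  have hηN : η * (256 * (N:ℝ) ^ 2) ≤ 1 := (le_div_iff₀ (by positivity)).1 hη'
  have a := mul_le_mul_of_nonneg_left (l1_le h) (mul_nonneg hsv hη)
  have b : sv * η ≤ N * η := mul_le_mul_of_nonneg_right hsvN hη
  have c := mul_le_mul_of_nonneg_right b (show (0:ℝ) ≤ 3 * N + 2 * dev N h ^ 2 by positivity)
  have d : (N:ℝ) * η ≤ 1 / 512 := by nlinarith
  have d' := mul_le_mul_of_nonneg_right d (sq_nonneg (dev N h))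
  nlinarith

lemma axis_of {N : ℕ} (hN : 0 < N) (sv : ℝ) (h : Fin N → ℝ) :
    ∃ e, dot e e = 1 ∧ ∀ z, sv * dot z h = sv * √(dot h h) * dot e z := by
  obtain ⟨e, he, hh⟩ := unit_of hN h
  refine ⟨e, he, fun z => ?_⟩
  conv_lhs => rw [hh]
  simp only [dot, Finset.mul_sum]
  exact Finset.sum_congr rfl fun i _ => by ring

/-- normalisation of the discretised tilt -/
lemma norm_close {N : ℕ} (hN : 2 ≤ N) {S : Type} [Fintype S] {W : S → ℝ} {x : S → Fin N → ℝ}
    {Y : (Fin N → ℝ) → Fin N → ℝ} {η : ℝ} (hY : Measurable Y)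
    (hcl : ∀ᵐ z ∂dirLaw (Fin N), dot z z = 1 ∧ (∀ k, |z k| ≤ 1) ∧ (∀ k, |Y z k| ≤ 2) ∧ ∀ k, |z k - Y z k| ≤ η)
    (hYi : ∀ G : (Fin N → ℝ) → ℝ, Continuous G → ∫ z, G (Y z) ∂dirLaw (Fin N) = ∑ s, W s * G (x s))
    {sv : ℝ} (hsv : 0 ≤ sv) (h : Fin N → ℝ) :
    Real.exp (-(sv * η * l1 h)) * mom N 0 (sv * √(dot h h)) ≤ ∑ s, W s * Real.exp (sv * dot (x s) h) ∧
      ∑ s, W s * Real.exp (sv * dot (x s) h) ≤ Real.exp (sv * η * l1 h) * mom N 0 (sv * √(dot h h)) := by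
  have hN0 : 0 < N := by omega
  set ν := dirLaw (Fin N)
  set ε := sv * η * l1 h
  obtain ⟨e, he, hez⟩ := axis_of hN0 sv h
  have hc : Continuous fun z : Fin N → ℝ => Real.exp (sv * dot z h) := by unfold dot; fun_prop
  have hT : mom N 0 (sv * √(dot h h)) = ∫ z, Real.exp (sv * dot z h) ∂ν := by
    simp only [mom, pow_zero, one_mul, hez]
    exact rotate (dot_e0 hN0) he (G := fun u => Real.exp (sv * √(dot h h) * u)) (by fun_prop)
  have hiZ : Integrable (fun z => Real.exp (sv * dot z h)) ν :=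
    (integrable_coord (G := fun u => Real.exp (sv * √(dot h h) * u)) hN0 he (by fun_prop)).congr
      (Eventually.of_forall fun z => by simp only [hez z])
  have hiY : Integrable (fun z => Real.exp (sv * dot (Y z) h)) ν := by
    refine (hiZ.const_mul (Real.exp ε)).mono' (hc.measurable.comp hY).aestronglyMeasurable (hcl.mono fun z hz => ?_)
    rw [Real.norm_eq_abs, Real.abs_exp, ← Real.exp_add, Real.exp_le_exp]
    linarith [(abs_le.1 (lin_close hsv hz.2.2.2 h)).2]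
  rw [← hYi _ hc, hT, ← integral_const_mul, ← integral_const_mul]
  constructor
  · refine integral_mono_ae (hiZ.const_mul _) hiY (hcl.mono fun z hz => ?_)
    show Real.exp _ * Real.exp _ ≤ Real.exp _
    rw [← Real.exp_add, Real.exp_le_exp]
    linarith [(abs_le.1 (lin_close hsv hz.2.2.2 h)).1]
  · refine integral_mono_ae hiY (hiZ.const_mul _) (hcl.mono fun z hz => ?_)
    show Real.exp _ ≤ Real.exp _ * Real.exp _
    rw [← Real.exp_add, Real.exp_le_exp]
    linarith [(abs_le.1 (lin_close hsv hz.2.2.2 h)).2]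

lemma gap_close {N : ℕ} (hN : 2 ≤ N) {η q : ℝ} (hη : 0 ≤ η) (hη' : η ≤ 1 / (256 * (N:ℝ) ^ 2))
    (hq0 : 0 ≤ q) (hq1 : q ≤ 1) {a b a' b' : Fin N → ℝ} (u1 : dot a a = 1) (w1 : dot b b = 1)
    (w2 : ∀ k, |b k| ≤ 1) (u3 : ∀ k, |a' k| ≤ 2) (u4 : ∀ k, |a k - a' k| ≤ η) (w4 : ∀ k, |b k - b' k| ≤ η) :
    (N:ℝ) / 64 * (dot a' b' - q) ^ 2 ≤ (N:ℝ) / 64 * (dot a b - q) ^ 2 + 1 := by
  have hN2 : (2:ℝ) ≤ N := by exact_mod_cast hN
  have hηN : η * (256 * (N:ℝ) ^ 2) ≤ 1 := (le_div_iff₀ (by positivity)).1 hη'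
  have hd : |dot a' b' - dot a b| ≤ 3 * N * η := by
    have e : dot a' b' - dot a b = ∑ k, ((a' k - a k) * b k + a' k * (b' k - b k)) := by
      simp only [dot, ← Finset.sum_sub_distrib]
      exact Finset.sum_congr rfl fun k _ => by ring
    rw [e]
    refine (Finset.abs_sum_le_sum_abs _ _).trans ((Finset.sum_le_sum (g := fun _ => 3 * η) fun k _ => ?_).trans
      (le_of_eq (by simp; ring)))
    refine (abs_add_le _ _).trans ?_
    rw [abs_mul, abs_mul, abs_sub_comm (a' k), abs_sub_comm (b' k)]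
    linarith [mul_le_mul (u4 k) (w2 k) (abs_nonneg _) hη, mul_le_mul (u3 k) (w4 k) (abs_nonneg _) zero_le_two]
  have hA : |dot a b - q| ≤ 2 := by
    have h := cauchy a b
    rw [u1, w1, Real.sqrt_one, one_mul] at h
    exact (abs_sub _ _).trans (by rw [abs_of_nonneg hq0]; linarith)
  set A := dot a b - q
  set A' := dot a' b' - q
  have hdd : |A' - A| ≤ 3 * N * η := by simpa [A, A'] using hd
  have h3 : 3 * (N:ℝ) * η ≤ 1 := by nlinarith
  have h5 : |A' + A| ≤ 5 := by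
    have := abs_add_le (A' - A) (2 * A)
    rw [show A' - A + 2 * A = A' + A by ring, abs_mul, abs_two] at this
    linarith
  have h6 : A' ^ 2 - A ^ 2 ≤ 5 * (3 * N * η) := by
    rw [sq_sub_sq]
    refine (le_abs_self _).trans ?_
    rw [abs_mul]
    exact mul_le_mul h5 hdd (abs_nonneg _) (by norm_num)
  have h7 := mul_le_mul_of_nonneg_left h6 (show (0:ℝ) ≤ N / 64 by positivity)
  have h8 : (N:ℝ) / 64 * (5 * (3 * N * η)) ≤ 1 := by nlinarith
  linarith

/-- two discretised replicas -/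
lemma pair_close {N : ℕ} (hN : 2 ≤ N) {S : Type} [Fintype S] {W : S → ℝ} {x : S → Fin N → ℝ}
    {Y : (Fin N → ℝ) → Fin N → ℝ} {η : ℝ} (hη : 0 ≤ η) (hη' : η ≤ 1 / (256 * (N:ℝ) ^ 2)) (hY : Measurable Y)
    (hcl : ∀ᵐ z ∂dirLaw (Fin N), dot z z = 1 ∧ (∀ k, |z k| ≤ 1) ∧ (∀ k, |Y z k| ≤ 2) ∧ ∀ k, |z k - Y z k| ≤ η)
    (hYi : ∀ G : (Fin N → ℝ) → ℝ, Continuous G → ∫ z, G (Y z) ∂dirLaw (Fin N) = ∑ s, W s * G (x s))
    {sv q : ℝ} (hsv : 0 ≤ sv) (hq0 : 0 ≤ q) (hq1 : q ≤ 1) (h : Fin N → ℝ) :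
    ∑ u, W u * ∑ w, W w * (Real.exp ((N:ℝ) / 64 * (dot (x u) (x w) - q) ^ 2) *
        Real.exp (sv * dot (x u) h) * Real.exp (sv * dot (x w) h)) ≤
      Real.exp 1 * Real.exp (2 * (sv * η * l1 h)) * (mom N 0 (sv * √(dot h h)) ^ 2 *
        (2 * Real.exp ((N:ℝ) / 16 * (mean N (sv * √(dot h h)) ^ 2 - q) ^ 2))) := by
  have hN0 : 0 < N := by omega
  set ν := dirLaw (Fin N)
  obtain ⟨e, he, hez⟩ := axis_of hN0 sv h
  obtain ⟨hPi, hPb⟩ := pair_square hN he (mul_nonneg hsv (Real.sqrt_nonneg (dot h h))) q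
  set H := fun p : (Fin N → ℝ) × (Fin N → ℝ) =>
    Real.exp ((N:ℝ) / 64 * (dot p.1 p.2 - q) ^ 2) * Real.exp (sv * dot p.1 h) * Real.exp (sv * dot p.2 h) with hH
  have hHc : Continuous H := by simp only [H]; unfold dot; fun_prop
  have hdb : ∀ᵐ p ∂ν.prod ν, H (Y p.1, Y p.2) ≤
      Real.exp 1 * Real.exp (2 * (sv * η * l1 h)) * pairW ((N:ℝ) / 64) q (sv * √(dot h h)) e p := by
    filter_upwards [measurePreserving_fst.quasiMeasurePreserving.ae hcl,
      measurePreserving_snd.quasiMeasurePreserving.ae hcl] with p ⟨u1, _, u3, u4⟩ ⟨w1, w2, _, w4⟩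
    have z0 := gap_close hN hη hη' hq0 hq1 u1 w1 w2 u3 u4 w4
    have z1 := (abs_le.1 (lin_close hsv u4 h)).2
    have z2 := (abs_le.1 (lin_close hsv w4 h)).2
    simp only [H, pairW, ← Real.exp_add, Real.exp_le_exp, ← hez]
    linarith
  have hHi : Integrable (fun p => H (Y p.1, Y p.2)) (ν.prod ν) := by
    refine (hPi.const_mul (Real.exp 1 * Real.exp (2 * (sv * η * l1 h)))).mono'
      (hHc.measurable.comp ((hY.comp measurable_fst).prodMk (hY.comp measurable_snd))).aestronglyMeasurable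
      (hdb.mono fun p hp => ?_)
    rw [Real.norm_eq_abs, abs_of_pos (mul_pos (mul_pos (Real.exp_pos _) (Real.exp_pos _)) (Real.exp_pos _))]
    exact hp
  have hdouble : ∑ u, W u * ∑ w, W w * H (x u, x w) = ∫ p, H (Y p.1, Y p.2) ∂ν.prod ν := by
    rw [integral_prod _ hHi]
    rw [← hYi (fun z => ∑ w, W w * H (z, x w))
      (continuous_finsetSum _ fun w _ => continuous_const.mul (hHc.comp (continuous_id.prodMk continuous_const)))]
    refine integral_congr_ae (Eventually.of_forall fun z => ?_)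
    exact (hYi (fun z' => H (Y z, z')) (hHc.comp (continuous_const.prodMk continuous_id))).symm
  refine le_trans (le_of_eq hdouble) ((integral_mono_ae hHi (hPi.const_mul _) hdb).trans ?_)
  rw [integral_const_mul]
  exact mul_le_mul_of_nonneg_left hPb (mul_pos (Real.exp_pos _) (Real.exp_pos _)).le

lemma psi_eq {N : ℕ} {S : Type} [Fintype S] (W : S → ℝ) (x : S → Fin N → ℝ) (q sv l : ℝ) (h : Fin N → ℝ) :
    psi x q W l (fun u => sv * dot (x u) h) =
      (∑ u, W u * ∑ w, W w * (Real.exp (l * (dot (x u) (x w) - q) ^ 2) *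
        Real.exp (sv * dot (x u) h) * Real.exp (sv * dot (x w) h))) /
        (∑ s, W s * Real.exp (sv * dot (x s) h)) ^ 2 := by
  simp only [psi, base, gibbs, Fin.prod_univ_two]
  rw [← (finTwoArrowEquiv S).symm.sum_comp, Fintype.sum_prod_type]
  set Z := ∑ s, W s * Real.exp (sv * dot (x s) h)
  simp only [Finset.mul_sum, Finset.sum_div]
  refine Finset.sum_congr rfl fun u _ => Finset.sum_congr rfl fun w _ => ?_
  show Real.exp (l * (dot (x (![u, w] 0)) (x (![u, w] 1)) - q) ^ 2) *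
    (W (![u, w] 0) * Real.exp (sv * dot (x (![u, w] 0)) h) / Z *
      (W (![u, w] 1) * Real.exp (sv * dot (x (![u, w] 1)) h) / Z)) = _
  simp only [Matrix.cons_val_zero, Matrix.cons_val_one, Matrix.cons_val_fin_one]
  ring

/-- the exponent left by two replicas -/
lemma exponent_le {N : ℕ} (hN : 2 ≤ N) {q rb v κ : ℝ} (hq0 : 0 ≤ q) (hq1 : q < 1) (hrb0 : 0 ≤ rb)
    (hrb : rb ≤ 1 / 500) (hrq : √q = √rb * (1 - q)) (hv0 : 0 ≤ v) (hv : v ≤ (N:ℝ) * rb)
    (hκ : |√v * √(N:ℝ) - ((N:ℝ) - 1) * √rb| ≤ κ) (h : Fin N → ℝ) :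
    (N:ℝ) / 16 * (mean N (√v * √(dot h h)) ^ 2 - q) ^ 2 ≤ (3 * κ + 2) ^ 2 + dev N h ^ 2 / 16 := by
  have hN2 : (2:ℝ) ≤ N := by exact_mod_cast hN
  set n := (N:ℝ) - 1 with hn
  have hn1 : 1 ≤ n := by linarith
  set sv := √v with hsv
  have hsv0 : 0 ≤ sv := Real.sqrt_nonneg _
  set a := sv * √(dot h h)
  set K := 3 * κ + 2
  have ha : 0 ≤ a := mul_nonneg hsv0 (Real.sqrt_nonneg _)
  have hm1 := abs_mean_le_one hN a
  have hsq1 : √q ≤ 1 := Real.sqrt_le_one.2 hq1.le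
  have h1 : (mean N a ^ 2 - q) ^ 2 ≤ 4 * (mean N a - √q) ^ 2 := by
    have e : mean N a ^ 2 - q = (mean N a + √q) * (mean N a - √q) := by
      linear_combination Real.sq_sqrt hq0
    have hs : (mean N a + √q) ^ 2 ≤ 4 := by
      obtain ⟨m0, m1⟩ := abs_le.1 hm1
      nlinarith [Real.sqrt_nonneg q]
    rw [e, mul_pow]
    exact mul_le_mul_of_nonneg_right hs (sq_nonneg _)
  have h2 := mean_near hN hq0 hq1 hrq ha
  have h3 : |a / n - √rb| ≤ (sv * |dev N h| + κ) / n := by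
    have e : a / n - √rb = (sv * dev N h + (sv * √(N:ℝ) - n * √rb)) / n := by
      simp only [a, dev]; field_simp; ring
    rw [e, abs_div, abs_of_pos (by linarith : 0 < n)]
    refine div_le_div_of_nonneg_right ((abs_add_le _ _).trans (add_le_add ?_ hκ)) (by linarith)
    rw [abs_mul, abs_of_nonneg hsv0]
  have hsr : √rb ≤ 1 := Real.sqrt_le_one.2 (by linarith)
  have h4 : |mean N a - √q| ≤ (3 * sv * |dev N h| + K) / n := by
    refine h2.trans ((add_le_add (mul_le_mul_of_nonneg_left h3 (by norm_num)) le_rfl).trans ?_)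
    rw [← mul_div_assoc, ← add_div]
    refine div_le_div_of_nonneg_right ?_ (by linarith)
    simp only [K]; linarith
  have h5 : (mean N a - √q) ^ 2 ≤ (2 * (3 * sv * |dev N h|) ^ 2 + 2 * K ^ 2) / n ^ 2 := by
    rw [← sq_abs]
    refine (pow_le_pow_left₀ (abs_nonneg _) h4 2).trans ?_
    rw [div_pow]
    refine div_le_div_of_nonneg_right ?_ (by positivity)
    nlinarith [sq_nonneg (3 * sv * |dev N h| - K)]
  have h6 : (N:ℝ) / n ^ 2 ≤ 2 := by
    rw [div_le_iff₀ (by positivity)]; nlinarith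
  have h7 : (N:ℝ) * v / n ^ 2 ≤ 4 * rb := by
    rw [div_le_iff₀ (by positivity)]
    calc (N:ℝ) * v ≤ N * (N * rb) := mul_le_mul_of_nonneg_left hv (by linarith)
      _ = (N:ℝ) ^ 2 * rb := by ring
      _ ≤ (2 * n) ^ 2 * rb := mul_le_mul_of_nonneg_right (pow_le_pow_left₀ (by linarith) (by linarith) 2) hrb0
      _ = _ := by ring
  calc (N:ℝ) / 16 * (mean N a ^ 2 - q) ^ 2
      ≤ (N:ℝ) / 16 * (4 * ((2 * (3 * sv * |dev N h|) ^ 2 + 2 * K ^ 2) / n ^ 2)) :=
        mul_le_mul_of_nonneg_left (h1.trans (mul_le_mul_of_nonneg_left h5 (by norm_num))) (by linarith)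
    _ = 9 / 2 * ((N:ℝ) * v / n ^ 2) * dev N h ^ 2 + (N:ℝ) / n ^ 2 * K ^ 2 / 2 := by
        rw [mul_pow, mul_pow, sq_abs, hsv, Real.sq_sqrt hv0]; ring
    _ ≤ 9 / 2 * (4 * rb) * dev N h ^ 2 + 2 * K ^ 2 / 2 := by gcongr
    _ ≤ _ := by
        have := mul_le_mul_of_nonneg_right hrb (sq_nonneg (dev N h))
        linarith [sq_nonneg (dev N h)]

variable {N : ℕ} {S : Type} [Fintype S] [Nonempty S] [DecidableEq S] {W : S → ℝ} {x : S → Fin N → ℝ}
  {Y : (Fin N → ℝ) → Fin N → ℝ} {η q rb v κ : ℝ}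

/-- free energy of a discretised sphere at the endpoint -/
lemma end_free (hN : 2 ≤ N) (hW : ∀ s, 0 < W s) (hY : Measurable Y)
    (hη : 0 ≤ η) (hη' : η ≤ 1 / (256 * (N:ℝ) ^ 2))
    (hcl : ∀ᵐ z ∂dirLaw (Fin N), dot z z = 1 ∧ (∀ k, |z k| ≤ 1) ∧ (∀ k, |Y z k| ≤ 2) ∧ ∀ k, |z k - Y z k| ≤ η)
    (hYi : ∀ G : (Fin N → ℝ) → ℝ, Continuous G → ∫ z, G (Y z) ∂dirLaw (Fin N) = ∑ s, W s * G (x s))
    (hq0 : 0 ≤ q) (hq1 : q < 1) (hrb : rb ≤ 1 / 500) (hrq : √q = √rb * (1 - q))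
    (hqs : √q ≤ 1 / 4) (hv : v ≤ (N:ℝ) * rb) (hκ : |√v * √(N:ℝ) - ((N:ℝ) - 1) * √rb| ≤ κ) :
    |ffield x v (lse W) 0 - ((N:ℝ) - 1) * sphPhi q| ≤
        (2 * Real.exp 2 + 2) * (√(N:ℝ) + 2) + κ + 3 := by
  have hN0 : 0 < N := by omega
  have hN2 : (2:ℝ) ≤ N := by exact_mod_cast hN
  set n := (N:ℝ) - 1 with hn
  set sv := √v with hsv
  have hsv0 : 0 ≤ sv := Real.sqrt_nonneg _
  have hsvN : sv ≤ √(N:ℝ) := Real.sqrt_le_sqrt (hv.trans (mul_le_of_le_one_right (by linarith) (by linarith)))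
  have hsvN' : sv ≤ N := hsvN.trans (by rw [Real.sqrt_le_left (by linarith)]; nlinarith)
  set ab := n * √rb
  have hab : |lam N ab - n * sphPhi q| ≤ 1 := by
    have h := lam_saddle hN (Real.sqrt_nonneg q) hqs
    rw [Real.sq_sqrt hq0] at h
    have e : √q / (1 - q) = √rb := by rw [hrq]; field_simp [show (1 - q) ≠ 0 by linarith]
    rw [e] at h
    exact h
  have hlip : ∀ a b : ℝ, |lam N a - lam N b| ≤ |a - b| := fun a b => by
    have := convex_univ.norm_image_sub_le_of_norm_hasDerivWithin_le (f := lam N) (f' := mean N) (C := 1)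
      (fun u _ => (hasDeriv_lam hN u).hasDerivWithinAt) (fun u _ => abs_mean_le_one hN u)
      (mem_univ b) (mem_univ a)
    simpa using this
  have hpt : ∀ h, |lse W (0 + fun u => sv * dot (x u) h) - n * sphPhi q| ≤
      Real.exp (dev N h ^ 2 / 8) + (√(N:ℝ) * |dev N h| + (κ + 2)) := by
    intro h
    rw [zero_add]
    obtain ⟨lo, up⟩ := norm_close hN hY hcl hYi hsv0 h
    have hT := mom_zero_pos hN (sv * √(dot h h))
    have hS : 0 < ∑ s, W s * Real.exp (sv * dot (x s) h) := lt_of_lt_of_le (mul_pos (Real.exp_pos _) hT) lo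
    have a1 := Real.log_le_log (mul_pos (Real.exp_pos _) hT) lo
    have a2 := Real.log_le_log hS up
    rw [Real.log_mul (Real.exp_pos _).ne' hT.ne', Real.log_exp] at a1 a2
    have a3 := hlip (sv * √(dot h h)) ab
    have a4 : |sv * √(dot h h) - ab| ≤ √(N:ℝ) * |dev N h| + κ := by
      have e : sv * √(dot h h) - ab = sv * dev N h + (sv * √(N:ℝ) - n * √rb) := by
        simp only [dev, ab]; ring
      rw [e]
      refine (abs_add_le _ _).trans (add_le_add ?_ hκ)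
      rw [abs_mul, abs_of_nonneg hsv0]
      exact mul_le_mul_of_nonneg_right hsvN (abs_nonneg _)
    have a5 : |Real.log (∑ s, W s * Real.exp (sv * dot (x s) h)) - lam N (sv * √(dot h h))| ≤
        1 + dev N h ^ 2 / 16 := by
      have := tol_le hN hsv0 hsvN' hη hη' h
      have := mul_nonneg (mul_nonneg hsv0 hη) (l1_nonneg h)
      simp only [lam] at *
      exact abs_le.2 ⟨by linarith, by linarith⟩
    have := Real.add_one_le_exp (dev N h ^ 2 / 8)
    have := sq_nonneg (dev N h)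
    simp only [lse]
    linarith [abs_sub_le (Real.log (∑ s, W s * Real.exp (sv * dot (x s) h))) (lam N (sv * √(dot h h)))
      (n * sphPhi q), abs_sub_le (lam N (sv * √(dot h h))) (lam N ab) (n * sphPhi q)]
  obtain ⟨hid, hbd⟩ := integral_abs_dev hN0
  obtain ⟨hie, hbe⟩ := dev_moment hN0
  have hi : Integrable (fun h => lse W (0 + fun u => sv * dot (x u) h)) (gauss (Fin N)) :=
    RS.integrable_ffield (good_lse hW) x v 0
  have hR := hie.add ((hid.const_mul √(N:ℝ)).add (integrable_const (κ + 2)))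
  have e : ffield x v (lse W) 0 - n * sphPhi q =
      ∫ h, (lse W (0 + fun u => sv * dot (x u) h) - n * sphPhi q) ∂gauss (Fin N) := by
    rw [integral_sub hi (integrable_const _)]
    simp [ffield, sv]
  rw [e]
  refine (abs_integral_le_integral_abs).trans ((integral_mono ((hi.sub (integrable_const _)).abs) hR hpt).trans ?_)
  rw [integral_add' hie ((hid.const_mul _).add (integrable_const _)), integral_add' (hid.const_mul _) (integrable_const _),
    integral_const_mul, integral_const, probReal_univ, one_smul]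
  have := mul_le_mul_of_nonneg_left hbd (Real.sqrt_nonneg (N:ℝ))
  have := Real.exp_pos 2
  linarith

/-- gap moment of a discretised sphere at the endpoint -/
lemma end_psi (hN : 2 ≤ N) (hW : ∀ s, 0 < W s) (hY : Measurable Y)
    (hη : 0 ≤ η) (hη' : η ≤ 1 / (256 * (N:ℝ) ^ 2))
    (hcl : ∀ᵐ z ∂dirLaw (Fin N), dot z z = 1 ∧ (∀ k, |z k| ≤ 1) ∧ (∀ k, |Y z k| ≤ 2) ∧ ∀ k, |z k - Y z k| ≤ η)
    (hYi : ∀ G : (Fin N → ℝ) → ℝ, Continuous G → ∫ z, G (Y z) ∂dirLaw (Fin N) = ∑ s, W s * G (x s))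
    (hq0 : 0 ≤ q) (hq1 : q < 1) (hrb0 : 0 ≤ rb) (hrb : rb ≤ 1 / 500) (hrq : √q = √rb * (1 - q))
    (hv0 : 0 ≤ v) (hv : v ≤ (N:ℝ) * rb) (hκ : |√v * √(N:ℝ) - ((N:ℝ) - 1) * √rb| ≤ κ) :
    ffield x v (psi x q W ((N:ℝ) / 64)) 0 ≤ endC κ := by
  have hN0 : 0 < N := by omega
  have hN2 : (2:ℝ) ≤ N := by exact_mod_cast hN
  set sv := √v with hsv
  have hsv0 : 0 ≤ sv := Real.sqrt_nonneg _
  have hsvN : sv ≤ N := (Real.sqrt_le_sqrt (hv.trans (mul_le_of_le_one_right (by linarith) (by linarith)))).trans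
    (by rw [Real.sqrt_le_left (by linarith)]; nlinarith)
  set K := 3 * κ + 2
  have hpt : ∀ h, psi x q W ((N:ℝ) / 64) (0 + fun u => sv * dot (x u) h) ≤
      2 * Real.exp 2 * Real.exp (K ^ 2) * Real.exp (dev N h ^ 2 / 8) := by
    intro h
    rw [zero_add, psi_eq]
    set ε := sv * η * l1 h
    set a := sv * √(dot h h)
    set E := (N:ℝ) / 16 * (mean N a ^ 2 - q) ^ 2
    have hm := mom_zero_pos hN a
    have hnum := pair_close hN hη hη' hY hcl hYi hsv0 hq0 hq1.le h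
    have hden : Real.exp (-(2 * ε)) * mom N 0 a ^ 2 ≤ (∑ s, W s * Real.exp (sv * dot (x s) h)) ^ 2 := by
      have := pow_le_pow_left₀ (mul_nonneg (Real.exp_pos _).le hm.le) (norm_close hN hY hcl hYi hsv0 h).1 2
      rw [mul_pow, ← Real.exp_nat_mul] at this
      refine le_trans (le_of_eq ?_) this
      simp only [ε]; push_cast; ring_nf
    have hpos : 0 ≤ Real.exp 1 * Real.exp (2 * ε) * (mom N 0 a ^ 2 * (2 * Real.exp E)) := by positivity
    refine (div_le_div₀ hpos hnum (mul_pos (Real.exp_pos _) (pow_pos hm 2)) hden).trans ?_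
    have hmne := hm.ne'
    rw [show Real.exp 1 * Real.exp (2 * ε) * (mom N 0 a ^ 2 * (2 * Real.exp E)) /
        (Real.exp (-(2 * ε)) * mom N 0 a ^ 2) =
        2 * (Real.exp 1 * Real.exp (2 * ε) * Real.exp (2 * ε) * Real.exp E) by
      rw [Real.exp_neg]; field_simp]
    rw [mul_assoc 2 (Real.exp 2), mul_assoc 2]
    refine mul_le_mul_of_nonneg_left ?_ zero_le_two
    simp only [← Real.exp_add, Real.exp_le_exp]
    have t1 : 4 * ε ≤ 1 + dev N h ^ 2 / 16 := tol_le hN hsv0 hsvN hη hη' h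
    have t2 : E ≤ K ^ 2 + dev N h ^ 2 / 16 := exponent_le hN hq0 hq1 hrb0 hrb hrq hv0 hv hκ h
    linarith
  obtain ⟨hie, hbe⟩ := dev_moment hN0
  show ∫ h, psi x q W ((N:ℝ) / 64) (0 + fun u => sv * dot (x u) h) ∂gauss (Fin N) ≤ _
  refine (integral_mono_of_nonneg (Eventually.of_forall fun h => ?_) (hie.const_mul _)
    (Eventually.of_forall hpt)).trans ?_
  · exact Finset.sum_nonneg fun _ _ =>
      mul_nonneg (Real.exp_pos _).le (Finset.prod_nonneg fun _ _ => (gibbs_pos hW _ _).le)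
  rw [integral_const_mul]
  refine (mul_le_mul_of_nonneg_left hbe (mul_pos (mul_pos two_pos (Real.exp_pos _)) (Real.exp_pos _)).le).trans
    (le_of_eq ?_)
  simp only [endC, K]
  rw [show (4:ℝ) = 2 + 2 by norm_num, Real.exp_add]
  ring

variable {f f1 f2 f3 : ℝ → ℝ} {B D L : ℝ}

/-- the saddle equation has a solution in `[0,1)` -/
theorem exists_fixed (hS : Smooth f f1 f2 f3 B D L) {α : ℝ} (hα : 0 ≤ α) :
    ∃ q, (0 ≤ q ∧ q < 1) ∧ q = α * Gam f f1 f2 f3 q * (1 - q) ^ 2 := by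
  have hc : Continuous fun q => q - α * Gam f f1 f2 f3 q * (1 - q) ^ 2 :=
    continuous_id.sub ((continuous_const.mul (continuous_Gam hS)).mul (by fun_prop))
  obtain ⟨q, hq, hq0⟩ := intermediate_value_Icc (zero_le_one : (0:ℝ) ≤ 1) hc.continuousOn
    (show (0:ℝ) ∈ Icc _ _ from ⟨by simpa using mul_nonneg hα (Gam_nonneg _), by simp⟩)
  refine ⟨q, ⟨hq.1, lt_of_le_of_ne hq.2 ?_⟩, sub_eq_zero.1 hq0⟩
  rintro rfl
  simp at hq0

/-- distance to the replica-symmetric value on the sphere -/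
lemma free_approx (hS : Smooth f f1 f2 f3 B D L) {α : ℝ} (hα : 0 < α) (hK : α * rate D B ≤ 1 / 128) {q : ℝ}
    (hq01 : 0 ≤ q ∧ q < 1) (hq : q = α * Gam f f1 f2 f3 q * (1 - q) ^ 2) {N : ℕ} (hN : 2 ≤ N) :
    |freeM f (dirLaw (Fin N)) ⌊α * N⌋₊ - ⌊α * N⌋₊ * incr f f1 f2 f3 q - ((N:ℝ) - 1) * sphPhi q| ≤
      (2 * Real.exp 2 + 2) * (√(N:ℝ) + 2) +
        (Gam f f1 f2 f3 q / √(α * Gam f f1 f2 f3 q) + 1) + 4 +
        endC (Gam f f1 f2 f3 q / √(α * Gam f f1 f2 f3 q) + 1) := by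
  obtain ⟨hq0, hq1⟩ := hq01
  have hN0 : 0 < N := by omega
  have : Nonempty (Fin N) := ⟨⟨0, hN0⟩⟩
  set Γ := Gam f f1 f2 f3 q
  set K := rate D B
  set M := ⌊α * N⌋₊
  set κ := Γ / √(α * Γ) + 1
  have hΓ : 0 ≤ Γ := Gam_nonneg q
  have hD := D_nonneg hS
  have hB := B_nonneg hS
  have hK0 : 0 ≤ K := by unfold K rate; positivity
  have hN2 : (2:ℝ) ≤ N := by exact_mod_cast hN
  have hM : (M:ℝ) ≤ α * N := Nat.floor_le (by positivity)
  have hM' : α * N < M + 1 := Nat.lt_floor_add_one _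
  have hrb : α * Γ ≤ 1 / 500 := by
    have h1 : Γ ≤ (D * D + D) ^ 2 * Real.exp (8 * B) :=
      (Gam_le hS q).trans ((show D ^ 2 ≤ (D * D + D) ^ 2 from pow_le_pow_left₀ hD (by nlinarith) 2).trans
        (le_mul_of_one_le_right (sq_nonneg _) (Real.one_le_exp (by linarith))))
    have h2 := mul_le_mul_of_nonneg_left h1 hα.le
    simp only [K, rate] at hK
    linarith
  have hqle : q ≤ α * Γ := hq ▸ mul_le_of_le_one_right (by positivity) (pow_le_one₀ (by linarith) (by linarith))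
  have hrq : √q = √(α * Γ) * (1 - q) := by
    conv_lhs => rw [hq]
    rw [Real.sqrt_mul (by positivity), Real.sqrt_sq (by linarith)]
  have hqs : √q ≤ 1 / 4 := by rw [Real.sqrt_le_left (by norm_num)]; linarith
  have hv : (M:ℝ) * Γ ≤ (N:ℝ) * (α * Γ) := by
    have := mul_le_mul_of_nonneg_right hM hΓ
    linarith
  have hκ : |√((M:ℝ) * Γ) * √(N:ℝ) - ((N:ℝ) - 1) * √(α * Γ)| ≤ κ := by
    have h1 : √(α * Γ) ≤ 1 := Real.sqrt_le_one.2 (by linarith)
    rcases hΓ.eq_or_lt with h0 | h0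
    · simp [κ, ← h0]
    have hs : 0 < √(α * Γ) := Real.sqrt_pos.2 (mul_pos hα h0)
    have hsum : √((M:ℝ) * Γ) * √(N:ℝ) - N * √(α * Γ) ≤ Γ / √(α * Γ) ∧
        -(Γ / √(α * Γ)) ≤ √((M:ℝ) * Γ) * √(N:ℝ) - N * √(α * Γ) := by
      set s := √((M:ℝ) * Γ) * √(N:ℝ)
      have hs2 : s * s = M * Γ * N := by
        calc s * s = (√((M:ℝ) * Γ) * √((M:ℝ) * Γ)) * (√(N:ℝ) * √(N:ℝ)) := by ring
          _ = _ := by rw [Real.mul_self_sqrt (by positivity), Real.mul_self_sqrt (by linarith)]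
      have ht2 := Real.mul_self_sqrt (show 0 ≤ α * Γ by positivity)
      have hs0 : 0 ≤ s := by positivity
      have key : |s - N * √(α * Γ)| * (N * √(α * Γ)) ≤ N * Γ := by
        calc |s - N * √(α * Γ)| * (N * √(α * Γ)) ≤ |s - N * √(α * Γ)| * (s + N * √(α * Γ)) :=
              mul_le_mul_of_nonneg_left (by linarith) (abs_nonneg _)
          _ = (N * Γ) * |(M:ℝ) - α * N| := by
              rw [← abs_of_nonneg (show 0 ≤ s + N * √(α * Γ) by positivity), ← abs_mul,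
                ← abs_of_nonneg (show 0 ≤ (N:ℝ) * Γ by positivity), ← abs_mul]
              congr 1
              linear_combination hs2 - (N:ℝ) ^ 2 * ht2
          _ ≤ _ := mul_le_of_le_one_right (by positivity) (abs_le.2 ⟨by linarith, by linarith⟩)
      have : |s - N * √(α * Γ)| ≤ Γ / √(α * Γ) := by
        rw [le_div_iff₀ hs]
        refine le_of_mul_le_mul_left ?_ (show (0:ℝ) < N by linarith)
        linarith
      exact ⟨(abs_le.1 this).2, (abs_le.1 this).1⟩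
    rw [abs_le]; simp only [κ]
    constructor <;> linarith [Real.sqrt_nonneg (α * Γ)]
  have hκ0 : 0 ≤ κ := (abs_nonneg _).trans hκ
  set L1 := ∫ z, l1 z ∂gauss (Fin N)
  have hL1 : 0 ≤ L1 := integral_nonneg fun _ => l1_nonneg _
  set η := min (1 / (256 * (N:ℝ) ^ 2)) (1 / ((B + D) * M * L1 + 1))
  have hη : 0 < η := lt_min (by positivity) (by positivity)
  obtain ⟨S, _, _, W, x, Y, hW, hx, hY, hYd, hYi⟩ :=
    exists_finite (ν := dirLaw (Fin N)) dirLaw_unit hη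
  classical
  have hη1 : η ≤ 1 := (min_le_left _ _).trans (div_le_one_of_le₀ (by nlinarith) (by positivity))
  have hcl := close_ae hN hη1 hYd
  have hend := end_free hN hW hY hη.le (min_le_left _ _) hcl hYi hq0 hq1 hrb hrq hqs hv hκ
  have hpsi := end_psi hN hW hY hη.le (min_le_left _ _) hcl hYi hq0 hq1 (mul_nonneg hα.le hΓ) hrb hrq
    (mul_nonneg (Nat.cast_nonneg M) hΓ) hv hκ
  have hl : (M:ℝ) * K + (N:ℝ) / 128 ≤ (N:ℝ) / 64 := by
    have a := mul_le_mul_of_nonneg_right hM hK0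
    have b := mul_le_mul_of_nonneg_right hK (show (0:ℝ) ≤ N by linarith)
    linarith
  have hch := RS.chain (x := x) (W := W) hS hx hq0 hq1.le hW (low := (N:ℝ) / 128) (by positivity) M 0
    (l := (N:ℝ) / 64) hl 0
  have e0 : ffield x ((0 : ℕ) * Γ) (lse W) = lse W := by funext E; simp [ffield, ← Pi.zero_def]
  rw [e0, zero_add] at hch
  have hcΨ : (M:ℝ) * (K / (16 * ((N:ℝ) / 128)) * ffield x (M * Γ) (psi x q W ((N:ℝ) / 64)) 0) ≤ endC κ := by
    have h1 : (M:ℝ) * (K / (16 * ((N:ℝ) / 128))) ≤ 1 := by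
      rw [show (M:ℝ) * (K / (16 * ((N:ℝ) / 128))) = 8 * ((M:ℝ) * K) / N by field_simp; ring,
        div_le_one (by linarith)]
      linarith
    rw [← mul_assoc]
    exact (mul_le_of_le_one_left (ffield_psi_nonneg hW x q _ _ 0) h1).trans hpsi
  -- discretisation error
  have hf := cont0 hS
  have hb : ∀ u, |f u| ≤ B + D := fun u => (hS.b0 u).trans (by linarith)
  have hLip : ∀ u w, |f u - f w| ≤ (B + D) * |u - w| := fun u w => by
    have := convex_univ.norm_image_sub_le_of_norm_hasDerivWithin_le (f := f) (f' := f1) (C := B + D)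
      (fun z _ => (hS.d0 z).hasDerivWithinAt) (fun z _ => (hS.b1 z).trans (by linarith)) (mem_univ w) (mem_univ u)
    simpa using this
  have hfin : freeM f ((dirLaw (Fin N)).map Y) M = (avg f x)^[M] (lse W) 0 := by
    rw [iterate_eq_integral hf hb hW x M 0, freeM]
    refine integral_congr_ae (Eventually.of_forall fun g => ?_)
    simp only [logZ, lse]
    rw [integral_map hY.aemeasurable (continuous_energy_right hf hb g).rexp.aestronglyMeasurable,
      hYi (fun z => Real.exp (energy f g z)) (continuous_energy_right hf hb g).rexp]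
    simp [energy, Lim.inc]
  have herr : (B + D) * η * M * L1 ≤ 1 := by
    have := mul_le_mul_of_nonneg_right (min_le_right (1 / (256 * (N:ℝ) ^ 2)) (1 / ((B + D) * M * L1 + 1)))
      (show 0 ≤ (B + D) * M * L1 by positivity)
    have h2 : 1 / ((B + D) * M * L1 + 1) * ((B + D) * M * L1) ≤ 1 := by
      rw [one_div_mul_eq_div, div_le_one (by positivity)]; linarith
    calc (B + D) * η * M * L1 = η * ((B + D) * M * L1) := by ring
      _ ≤ 1 := this.trans h2
  have p1 := perturb hf hb (P := dirLaw (Fin N)) measurable_id hY hLip hYd M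
  have p2 := perturb hf hb (P := dirLaw (Fin N)) hY measurable_id hLip
    (hYd.mono fun z hz k => by rw [abs_sub_comm]; exact hz k) M
  rw [Measure.map_id, hfin] at p1 p2
  have := abs_le.1 hch
  have := abs_le.1 hend
  rw [abs_le]
  constructor <;> linarith

/-- the replica-symmetric formula on the sphere -/
theorem rs_limit (hS : Smooth f f1 f2 f3 B D L) {α : ℝ} (hα : 0 < α) (hK : α * rate D B ≤ 1 / 128) {q : ℝ}
    (hq01 : 0 ≤ q ∧ q < 1) (hq : q = α * Gam f f1 f2 f3 q * (1 - q) ^ 2) :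
    Tendsto (fun N : ℕ => pressure (sphereUniform N) f ⌊α * N⌋₊) atTop
      (𝓝 (α * incr f f1 f2 f3 q + sphPhi q)) := by
  set κ := Gam f f1 f2 f3 q / √(α * Gam f f1 f2 f3 q) + 1
  set C := 2 * Real.exp 2 + 2
  set C' := C * 2 + κ + 4 + endC κ
  have hfl : Tendsto (fun N : ℕ => (⌊α * N⌋₊:ℝ) / N) atTop (𝓝 α) :=
    (tendsto_nat_floor_mul_div_atTop hα.le).comp tendsto_natCast_atTop_atTop
  have hone : Tendsto (fun N : ℕ => ((N:ℝ) - 1) / N) atTop (𝓝 1) := by
    have h := (tendsto_const_nhds (x := (1:ℝ))).sub (tendsto_const_div_atTop_nhds_zero_nat (1:ℝ))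
    rw [sub_zero] at h
    refine h.congr' ?_
    filter_upwards [eventually_gt_atTop 0] with N hN
    have : (N:ℝ) ≠ 0 := by exact_mod_cast hN.ne'
    field_simp
  have hmain : Tendsto (fun N : ℕ => (⌊α * N⌋₊:ℝ) / N * incr f f1 f2 f3 q + ((N:ℝ) - 1) / N * sphPhi q) atTop
      (𝓝 (α * incr f f1 f2 f3 q + sphPhi q)) := by
    simpa using (hfl.mul_const (incr f f1 f2 f3 q)).add (hone.mul_const (sphPhi q))
  have hrt : Tendsto (fun N : ℕ => C / √(N:ℝ) + C' / N) atTop (𝓝 0) := by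
    simpa using ((Real.tendsto_sqrt_atTop.comp tendsto_natCast_atTop_atTop).const_div_atTop C).add
      (tendsto_const_div_atTop_nhds_zero_nat C')
  have herr : Tendsto (fun N : ℕ => freeM f (dirLaw (Fin N)) ⌊α * N⌋₊ / N -
      ((⌊α * N⌋₊:ℝ) / N * incr f f1 f2 f3 q + ((N:ℝ) - 1) / N * sphPhi q)) atTop (𝓝 0) := by
    refine squeeze_zero_norm' ?_ hrt
    filter_upwards [eventually_ge_atTop 2] with N hN
    have hN0 : (0:ℝ) < N := by
      have : (2:ℝ) ≤ N := by exact_mod_cast hN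
      linarith
    have h := div_le_div_of_nonneg_right (free_approx hS hα hK hq01 hq hN) hN0.le
    refine le_trans (le_of_eq ?_) (h.trans (le_of_eq ?_))
    · rw [Real.norm_eq_abs]
      conv_rhs => rw [← abs_of_pos hN0, ← abs_div, abs_of_pos hN0]
      congr 1
      field_simp
      ring
    · simp only [C', C, κ]
      rw [div_eq_mul_inv _ √(N:ℝ), ← Real.sqrt_div_self (x := (N:ℝ))]
      ring
  have htot := herr.add hmain
  rw [zero_add] at htot
  refine htot.congr' ?_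
  filter_upwards [eventually_gt_atTop 0] with N hN
  rw [pressure_eq_freeM hN (cont0 hS)]
  ring

end Vale.Agent.P157.RS.Sph
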