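import Vale.Agent.P157.RS.Sph.Tilt

/-! The length of a standard Gaussian vector is subgaussian around `√N`. -/

open MeasureTheory ProbabilityTheory Set Filter
open scoped Topology
open Vale.Agent.P150 (gauss dot l1 gauss_ibp exp_sumsq integral_exp_mul_sq)
open Vale.Agent.P157.Lim

namespace Vale.Agent.P157.RS.Sph

set_option linter.unusedSectionVars false

variable {N : ℕ}

/-- centred length -/
noncomputable def dev (N : ℕ) (z : Fin N → ℝ) : ℝ := √(dot z z) - √(N:ℝ)

lemma continuous_dev : Continuous (dev N) := by unfold dev dot; fun_prop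

lemma upper_tail (hN : 0 < N) {t : ℝ} (ht : 0 ≤ t) :
    Integrable (fun z => Real.exp (t * √(dot z z))) (gauss (Fin N)) ∧
      ∫ z, Real.exp (t * √(dot z z)) ∂gauss (Fin N) ≤ Real.exp (t * √(N:ℝ) + t ^ 2 / 2) := by
  set r := √(N:ℝ)
  have hr : 0 < r := Real.sqrt_pos.2 (by exact_mod_cast hN)
  have hrr : r * r = N := Real.mul_self_sqrt (Nat.cast_nonneg N)
  set σ := t / (2 * (r + t)) with hσ
  have hσ1 : σ < 1 / 2 := by rw [hσ, div_lt_iff₀ (by positivity)]; linarith
  have hpt : ∀ z : Fin N → ℝ, Real.exp (t * √(dot z z)) ≤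
      Real.exp (t * (r + t) / 2) * Real.exp (σ * ∑ k, z k ^ 2) := fun z => by
    rw [← Real.exp_add, Real.exp_le_exp]
    have e : ∑ k, z k ^ 2 = √(dot z z) ^ 2 := by rw [Real.sq_sqrt (dot_self_nonneg z)]; simp [dot, sq]
    rw [e]
    have h := mul_nonneg ht (sq_nonneg (√(dot z z) - (r + t)))
    have h2 : t * (r + t) / 2 + σ * √(dot z z) ^ 2 - t * √(dot z z) =
        t * (√(dot z z) - (r + t)) ^ 2 / (2 * (r + t)) := by
      rw [hσ]; field_simp; ring
    have h3 : 0 ≤ t * (√(dot z z) - (r + t)) ^ 2 / (2 * (r + t)) := div_nonneg h (by positivity)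
    linarith
  obtain ⟨hi, he⟩ := exp_sumsq (ι := Fin N) hσ1
  have hint : Integrable (fun z => Real.exp (t * √(dot z z))) (gauss (Fin N)) :=
    (hi.const_mul (Real.exp (t * (r + t) / 2))).mono' (Continuous.aestronglyMeasurable (by unfold dot; fun_prop))
      (Eventually.of_forall fun z => by rw [Real.norm_eq_abs, Real.abs_exp]; exact hpt z)
  refine ⟨hint, (integral_mono hint (hi.const_mul _) hpt).trans ?_⟩
  rw [integral_const_mul, he, Fintype.card_fin, show t * r + t ^ 2 / 2 = t * (r + t) / 2 + t * r / 2 by ring,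
    Real.exp_add]
  refine mul_le_mul_of_nonneg_left ?_ (Real.exp_pos _).le
  have h1 : (√(1 - 2 * σ))⁻¹ ≤ Real.exp (t / (2 * r)) := by
    rw [← Real.sqrt_inv, Real.sqrt_le_left (Real.exp_pos _).le, ← Real.exp_nat_mul]
    have e0 : 1 - 2 * σ = r / (r + t) := by
      have : r + t ≠ 0 := by positivity
      rw [hσ]; field_simp; ring
    have : (1 - 2 * σ)⁻¹ = t / r + 1 := by rw [e0, inv_div, add_div, div_self hr.ne']; ring
    rw [this]
    refine (Real.add_one_le_exp _).trans (le_of_eq ?_)
    congr 1; push_cast; field_simp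
  refine (pow_le_pow_left₀ (by positivity) h1 N).trans (le_of_eq ?_)
  rw [← Real.exp_nat_mul]
  congr 1
  rw [← hrr]; field_simp

lemma lower_tail (hN : 0 < N) {τ : ℝ} (hτ : 0 ≤ τ) :
    ∫ z, Real.exp (-(τ * √(dot z z))) ∂gauss (Fin N) ≤ Real.exp (τ ^ 2 / 2 + τ - τ * √((N:ℝ) - 1)) := by
  set ℓ := fun z : Fin N → ℝ => len 1 z with hℓ
  have hl : ∀ z, 1 ≤ ℓ z := fun z => by
    simp only [ℓ, len]; rw [Real.one_le_sqrt]; linarith [dot_self_nonneg z]
  have hlc : Continuous ℓ := continuous_len 1
  set φ := fun s => ∫ z, Real.exp (-(s * ℓ z)) ∂gauss (Fin N) with hφ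
  set A := fun s => ∫ z, ℓ z * Real.exp (-(s * ℓ z)) ∂gauss (Fin N) with hA
  have iA : ∀ s : ℝ, Integrable (fun z => ℓ z * Real.exp (-(s * ℓ z))) (gauss (Fin N)) := fun s => by
    refine Vale.Agent.P150.integrable_of_bound (C := Real.exp |s|) (M := |s| + 1) (hlc.mul (by fun_prop)) fun z => ?_
    have h1 := len_le zero_le_one z
    rw [Real.sqrt_one] at h1
    have h2 := sqrt_dot_le_l1 z
    have h3 := Real.add_one_le_exp (l1 z)
    have hz : 0 ≤ ℓ z := zero_le_one.trans (hl z)
    rw [abs_mul, abs_of_nonneg hz, Real.abs_exp, add_mul, one_mul, Real.exp_add, ← mul_assoc,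
      mul_comm _ (Real.exp (l1 z))]
    refine mul_le_mul (by simp only [ℓ] at *; linarith) ?_ (Real.exp_pos _).le (Real.exp_pos _).le
    rw [← Real.exp_add, Real.exp_le_exp]
    have h4 := mul_le_mul_of_nonneg_left (show ℓ z ≤ l1 z + 1 by simp only [ℓ]; linarith) (abs_nonneg s)
    have h5 := neg_abs_le s
    nlinarith
  have i0 : ∀ s : ℝ, 0 ≤ s → Integrable (fun z => Real.exp (-(s * ℓ z))) (gauss (Fin N)) := fun s hs =>
    Integrable.of_bound (Continuous.aestronglyMeasurable (by fun_prop)) 1 (Eventually.of_forall fun z => by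
      rw [Real.norm_eq_abs, Real.abs_exp, Real.exp_le_one_iff]
      linarith [mul_nonneg hs (zero_le_one.trans (hl z))])
  have hd : ∀ s, 0 < s → HasDerivAt φ (-A s) s := by
    intro s hs
    have key := (hasDerivAt_integral_of_dominated_loc_of_deriv_le (μ := gauss (Fin N))
      (bound := fun z => ℓ z * Real.exp (-(0 * ℓ z)))
      (F := fun u z => Real.exp (-(u * ℓ z))) (F' := fun u z => -(ℓ z * Real.exp (-(u * ℓ z))))
      (Metric.ball_mem_nhds s hs) (Eventually.of_forall fun u => Continuous.aestronglyMeasurable (by fun_prop))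
      (i0 s hs.le) (Continuous.aestronglyMeasurable (by fun_prop))
      (Eventually.of_forall fun z u hu => by
        rw [Metric.mem_ball, Real.dist_eq, abs_lt] at hu
        have hz : 0 ≤ ℓ z := zero_le_one.trans (hl z)
        rw [Real.norm_eq_abs, abs_neg, abs_mul, abs_of_nonneg hz, Real.abs_exp]
        exact mul_le_mul_of_nonneg_left (Real.exp_le_exp.2 (by
          linarith [mul_nonneg (show 0 ≤ u by linarith) hz])) hz)
      (iA 0)
      (Eventually.of_forall fun z u _ =>
        ((((hasDerivAt_id' u).mul_const (ℓ z)).neg).exp).congr_deriv (by simp [mul_comm]))).2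
    exact key.congr_deriv (integral_neg _)
  have hineq : ∀ s, 0 < s → (√((N:ℝ) - 1) - s) * φ s ≤ A s := by
    intro s hs
    set e := fun z : Fin N → ℝ => Real.exp (-(s * ℓ z))
    have he1 : ∀ z, e z ≤ 1 := fun z => Real.exp_le_one_iff.2 (by
      linarith [mul_nonneg hs.le (zero_le_one.trans (hl z))])
    set Bm := ∫ z, e z / ℓ z ∂gauss (Fin N)
    have iB : Integrable (fun z => e z / ℓ z) (gauss (Fin N)) :=
      Integrable.of_bound (Continuous.div (by fun_prop) hlc fun z => (lt_of_lt_of_le one_pos (hl z)).ne').aestronglyMeasurable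
        1 (Eventually.of_forall fun z => by
          rw [Real.norm_eq_abs, abs_div, abs_of_pos (Real.exp_pos _), abs_of_pos (lt_of_lt_of_le one_pos (hl z))]
          exact div_le_one_of_le₀ ((he1 z).trans (hl z)) (zero_le_one.trans (hl z)))
    -- integration by parts
    set F := fun (k : Fin N) (z : Fin N → ℝ) => z k / ℓ z * e z
    set F' := fun (k : Fin N) (z : Fin N → ℝ) =>
      (1 / ℓ z - (z k) ^ 2 / ℓ z ^ 3 - s * ((z k) ^ 2 / ℓ z ^ 2)) * e z
    have hzk : ∀ k z, (z k) ^ 2 ≤ ℓ z ^ 2 := fun k z => by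
      simp only [ℓ, len]
      rw [Real.sq_sqrt (by linarith [dot_self_nonneg z])]
      have : z k * z k ≤ dot z z :=
        Finset.single_le_sum (f := fun i => z i * z i) (fun i _ => mul_self_nonneg _) (Finset.mem_univ k)
      rw [sq]; linarith
    have hne : ∀ z, ℓ z ≠ 0 := fun z => (lt_of_lt_of_le one_pos (hl z)).ne'
    have bF : ∀ k z, |F k z| ≤ (3 + s) * Real.exp (0 * l1 z) := fun k z => by
      have : |z k / ℓ z| ≤ 1 := by
        rw [← sq_le_one_iff_abs_le_one, div_pow]; exact div_le_one_of_le₀ (hzk k z) (sq_nonneg _)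
      rw [zero_mul, Real.exp_zero, mul_one, abs_mul, abs_of_pos (Real.exp_pos _)]
      exact (mul_le_one₀ this (Real.exp_pos _).le (he1 z)).trans (by linarith)
    have bF' : ∀ k z, |F' k z| ≤ (3 + s) * Real.exp (0 * l1 z) := fun k z => by
      have h1 : |1 / ℓ z| ≤ 1 := by
        rw [abs_div, abs_one, abs_of_pos (lt_of_lt_of_le one_pos (hl z))]
        exact div_le_one_of_le₀ (hl z) (zero_le_one.trans (hl z))
      have h2 : |(z k) ^ 2 / ℓ z ^ 2| ≤ 1 := by
        rw [abs_of_nonneg (by positivity)]; exact div_le_one_of_le₀ (hzk k z) (sq_nonneg _)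
      have h3 : |(z k) ^ 2 / ℓ z ^ 3| ≤ 1 := by
        rw [show (z k) ^ 2 / ℓ z ^ 3 = (z k) ^ 2 / ℓ z ^ 2 * (1 / ℓ z) by have := hne z; field_simp, abs_mul]
        exact mul_le_one₀ h2 (abs_nonneg _) h1
      rw [zero_mul, Real.exp_zero, mul_one, abs_mul, abs_of_pos (Real.exp_pos _)]
      refine (mul_le_of_le_one_right (abs_nonneg _) (he1 z)).trans ((abs_sub _ _).trans ?_)
      rw [abs_mul, abs_of_pos hs]
      linarith [abs_sub (1 / ℓ z) ((z k) ^ 2 / ℓ z ^ 3), mul_le_of_le_one_right hs.le h2]
    have cF : ∀ k, Continuous (F k) := fun k =>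
      ((continuous_apply k).div hlc hne).mul (by fun_prop)
    have cF' : ∀ k, Continuous (F' k) := fun k =>
      (((continuous_const.div hlc hne).sub (((continuous_apply k).pow 2).div (hlc.pow 3) fun z => pow_ne_zero _ (hne z))).sub
        (continuous_const.mul (((continuous_apply k).pow 2).div (hlc.pow 2) fun z => pow_ne_zero _ (hne z)))).mul
        (by fun_prop)
    have hibp : ∀ k, ∫ z, z k * F k z ∂gauss (Fin N) = ∫ z, F' k z ∂gauss (Fin N) := fun k => by
      refine gauss_ibp k le_rfl (cF k) (cF' k) (bF k) (bF' k) fun z t => ?_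
      set w := Function.update z k t with hw
      have hu : ∀ i, HasDerivAt (fun u => Function.update z k u i) ((Pi.single k (1:ℝ) : Fin N → ℝ) i) t :=
        fun i => hasDerivAt_pi.1 (hasDerivAt_update z k t) i
      have d2 : HasDerivAt (fun u => dot (Function.update z k u) (Function.update z k u) + 1) (2 * w k) t := by
        refine ((HasDerivAt.fun_sum (u := Finset.univ) fun i _ => (hu i).mul (hu i)).add_const 1).congr_deriv ?_
        refine (Finset.sum_congr rfl fun i _ => show _ = if i = k then 2 * w k else 0 from ?_).trans (by simp)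
        rcases eq_or_ne i k with rfl | hik
        · simp [hw]; ring
        · simp [hik]
      have d3 : HasDerivAt (fun u => ℓ (Function.update z k u)) (w k / ℓ w) t :=
        (d2.sqrt (by linarith [dot_self_nonneg w])).congr_deriv (by
          rw [show √(dot w w + 1) = ℓ w from rfl]; have := hne w; field_simp)
      have d1 : HasDerivAt (fun u => Function.update z k u k) 1 t := (hu k).congr_deriv (by simp)
      refine ((d1.div d3 (hne w)).mul ((d3.const_mul s).neg.exp)).congr_deriv ?_
      simp only [F', e, Pi.div_apply, Pi.neg_apply, ← hw]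
      have := hne w
      field_simp
      ring
    have i1 : ∀ k, Integrable (fun z => z k * F k z) (gauss (Fin N)) := fun k =>
      Vale.Agent.P150.integrable_of_bound (C := 3 + s) (M := 1) ((continuous_apply k).mul (cF k)) fun z => by
        rw [abs_mul, one_mul, mul_comm (3 + s)]
        refine mul_le_mul ?_ ((bF k z).trans (le_of_eq (by simp))) (abs_nonneg _) (Real.exp_pos _).le
        linarith [Vale.Agent.P150.abs_le_l1 z k, Real.add_one_le_exp (l1 z)]
    have i2 : ∀ k, Integrable (F' k) (gauss (Fin N)) := fun k =>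
      Vale.Agent.P150.integrable_of_bound (cF' k) (bF' k)
    have hsum : ∑ k, ∫ z, z k * F k z ∂gauss (Fin N) = ∑ k, ∫ z, F' k z ∂gauss (Fin N) :=
      Finset.sum_congr rfl fun k _ => hibp k
    rw [← integral_finsetSum _ fun k _ => i1 k, ← integral_finsetSum _ fun k _ => i2 k] at hsum
    have low : ((N:ℝ) - 1) * Bm - s * φ s ≤ A s := by
      calc ((N:ℝ) - 1) * Bm - s * φ s = ∫ z, (((N:ℝ) - 1) * (e z / ℓ z) - s * e z) ∂gauss (Fin N) := by
            rw [integral_sub (iB.const_mul _) ((i0 s hs.le).const_mul _), integral_const_mul, integral_const_mul]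
        _ ≤ ∫ z, ∑ k, F' k z ∂gauss (Fin N) := by
            refine integral_mono ((iB.const_mul _).sub ((i0 s hs.le).const_mul _))
              (integrable_finsetSum _ fun k _ => i2 k) fun z => ?_
            have := hne z
            have hz : 0 < ℓ z := lt_of_lt_of_le one_pos (hl z)
            have hq : (∑ k, (z k) ^ 2) ≤ ℓ z ^ 2 := by
              simp only [ℓ, len]; rw [Real.sq_sqrt (by linarith [dot_self_nonneg z])]
              simp [dot, sq]
            have e1 : ∑ k, F' k z = ((N:ℝ) / ℓ z - (∑ k, (z k) ^ 2) / ℓ z ^ 3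
                - s * ((∑ k, (z k) ^ 2) / ℓ z ^ 2)) * e z := by
              simp only [F', ← Finset.sum_mul, Finset.sum_sub_distrib, Finset.sum_const, Finset.card_univ,
                Fintype.card_fin, nsmul_eq_mul, ← Finset.sum_div, ← Finset.mul_sum, mul_one_div]
            show ((N:ℝ) - 1) * (e z / ℓ z) - s * e z ≤ _
            rw [e1]
            have a : (∑ k, (z k) ^ 2) / ℓ z ^ 3 ≤ 1 / ℓ z := by
              rw [div_le_div_iff₀ (by positivity) hz]
              calc (∑ k, (z k) ^ 2) * ℓ z ≤ ℓ z ^ 2 * ℓ z := mul_le_mul_of_nonneg_right hq hz.le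
                _ = _ := by ring
            have b : (∑ k, (z k) ^ 2) / ℓ z ^ 2 ≤ 1 := div_le_one_of_le₀ hq (sq_nonneg _)
            calc ((N:ℝ) - 1) * (e z / ℓ z) - s * e z = ((N:ℝ) / ℓ z - 1 / ℓ z - s * 1) * e z := by ring
              _ ≤ _ := mul_le_mul_of_nonneg_right (sub_le_sub (sub_le_sub_left a _)
                  (mul_le_mul_of_nonneg_left b hs.le)) (Real.exp_pos _).le
        _ = ∫ z, ∑ k, z k * F k z ∂gauss (Fin N) := hsum.symm
        _ ≤ A s := by
            refine integral_mono (integrable_finsetSum _ fun k _ => i1 k) (iA s) fun z => ?_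
            have hz : 0 < ℓ z := lt_of_lt_of_le one_pos (hl z)
            have hq : (∑ k, (z k) ^ 2) ≤ ℓ z ^ 2 := by
              simp only [ℓ, len]; rw [Real.sq_sqrt (by linarith [dot_self_nonneg z])]
              simp [dot, sq]
            show ∑ k, z k * (z k / ℓ z * e z) ≤ ℓ z * e z
            have : ∑ k, z k * (z k / ℓ z * e z) = (∑ k, (z k) ^ 2) / ℓ z * e z := by
              simp only [Finset.sum_div, Finset.sum_mul]
              exact Finset.sum_congr rfl fun k _ => by ring
            rw [this]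
            exact mul_le_mul_of_nonneg_right ((div_le_iff₀ hz).2 (hq.trans_eq (sq _))) (Real.exp_pos _).le
    have hφ0 : 0 < φ s := integral_exp_pos (i0 s hs.le)
    have hB0 : 0 ≤ Bm := integral_nonneg fun z => div_nonneg (Real.exp_pos _).le (zero_le_one.trans (hl z))
    have cs : ∀ u : ℝ, 2 * u * φ s ≤ A s + u ^ 2 * Bm := fun u => by
      calc 2 * u * φ s = ∫ z, 2 * u * e z ∂gauss (Fin N) := (integral_const_mul _ _).symm
        _ ≤ ∫ z, (ℓ z * e z + u ^ 2 * (e z / ℓ z)) ∂gauss (Fin N) := by
            refine integral_mono ((i0 s hs.le).const_mul _) ((iA s).add (iB.const_mul _)) fun z => ?_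
            have hz : 0 < ℓ z := lt_of_lt_of_le one_pos (hl z)
            have : ℓ z * e z + u ^ 2 * (e z / ℓ z) - 2 * u * e z = (ℓ z - u) ^ 2 * e z / ℓ z := by
              field_simp; ring
            have h' : 0 ≤ (ℓ z - u) ^ 2 * e z / ℓ z :=
              div_nonneg (mul_nonneg (sq_nonneg _) (Real.exp_pos _).le) hz.le
            show 2 * u * e z ≤ _
            linarith
        _ = _ := by rw [integral_add (iA s) (iB.const_mul _), integral_const_mul]
    have hA0 : 0 < A s := lt_of_lt_of_le hφ0 (integral_mono (i0 s hs.le) (iA s) fun z =>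
      le_mul_of_one_le_left (Real.exp_pos _).le (hl z))
    -- quadratic inequality
    have hN1 : (0:ℝ) ≤ (N:ℝ) - 1 := by
      have : (1:ℝ) ≤ N := by exact_mod_cast hN
      linarith
    have h3 := cs (A s / φ s)
    rw [show 2 * (A s / φ s) * φ s = 2 * A s by field_simp, div_pow, div_mul_eq_mul_div] at h3
    have h4 : φ s ^ 2 ≤ A s * Bm := by
      have := mul_le_mul_of_nonneg_left (show A s ≤ A s ^ 2 * Bm / φ s ^ 2 by linarith) (sq_nonneg (φ s))
      rw [mul_div_cancel₀ _ (pow_ne_zero 2 hφ0.ne')] at this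
      refine le_of_mul_le_mul_left ?_ hA0
      linarith
    have h5 := mul_le_mul_of_nonneg_left h4 hN1
    have h6 := mul_le_mul_of_nonneg_left low hA0.le
    have h7 : √((N:ℝ) - 1) * φ s ≤ A s + s * φ s := by
      refine abs_le_of_sq_le_sq' ?_ (by positivity) |>.2
      rw [mul_pow, Real.sq_sqrt hN1]
      nlinarith [mul_nonneg (mul_nonneg hs.le hφ0.le) hA0.le, sq_nonneg (s * φ s)]
    linarith
  -- integrate the differential inequality
  set r := √((N:ℝ) - 1)
  have hcφ : ContinuousOn φ (Ici 0) := continuousOn_of_dominated (bound := fun _ => (1:ℝ))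
    (fun u _ => Continuous.aestronglyMeasurable (by fun_prop))
    (fun u hu => Eventually.of_forall fun z => by
      rw [Real.norm_eq_abs, Real.abs_exp, Real.exp_le_one_iff]
      linarith [mul_nonneg (show (0:ℝ) ≤ u from hu) (zero_le_one.trans (hl z))])
    (integrable_const _) (Eventually.of_forall fun z => Continuous.continuousOn (by fun_prop))
  have anti : AntitoneOn (fun u => φ u * Real.exp (u * r - u ^ 2 / 2)) (Ici 0) := by
    refine antitoneOn_of_hasDerivWithinAt_nonpos
      (f' := fun u => (-A u + φ u * (r - u)) * Real.exp (u * r - u ^ 2 / 2))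
      (convex_Ici 0) (hcφ.mul (Continuous.continuousOn (by fun_prop))) (fun u hu => ?_) (fun u hu => ?_) <;>
      rw [interior_Ici] at hu
    · exact (((hd u hu).mul ((((hasDerivAt_id' u).mul_const r).sub ((hasDerivAt_pow 2 u).div_const 2)).exp)).congr_deriv
        (by simp; ring)).hasDerivWithinAt
    · refine mul_nonpos_of_nonpos_of_nonneg ?_ (Real.exp_pos _).le
      linarith [hineq u hu]
  have h := anti (self_mem_Ici) (show τ ∈ Ici (0:ℝ) from hτ) hτ
  have h0 : φ 0 = 1 := by simp [φ]
  simp only [h0, zero_mul, zero_pow two_ne_zero, zero_div, sub_zero, Real.exp_zero, mul_one] at h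
  have h' : φ τ ≤ Real.exp (τ ^ 2 / 2 - τ * r) := by
    rw [← le_div_iff₀ (Real.exp_pos _)] at h
    refine h.trans (le_of_eq ?_)
    rw [one_div, ← Real.exp_neg]; ring_nf
  calc ∫ z, Real.exp (-(τ * √(dot z z))) ∂gauss (Fin N) ≤ ∫ z, Real.exp τ * Real.exp (-(τ * ℓ z)) ∂gauss (Fin N) := by
        refine integral_mono_of_nonneg (Eventually.of_forall fun z => (Real.exp_pos _).le) ((i0 τ hτ).const_mul _)
          (Eventually.of_forall fun z => ?_)
        show Real.exp _ ≤ Real.exp τ * Real.exp _
        rw [← Real.exp_add, Real.exp_le_exp]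
        have := len_le zero_le_one z
        rw [Real.sqrt_one] at this
        have := mul_le_mul_of_nonneg_left this hτ
        simp only [ℓ]; linarith
    _ ≤ Real.exp τ * Real.exp (τ ^ 2 / 2 - τ * r) := by
        rw [integral_const_mul]; exact mul_le_mul_of_nonneg_left h' (Real.exp_pos _).le
    _ = _ := by rw [← Real.exp_add]; ring_nf

lemma dev_linear (hN : 0 < N) (t : ℝ) :
    Integrable (fun z => Real.exp (t * dev N z)) (gauss (Fin N)) ∧
      ∫ z, Real.exp (t * dev N z) ∂gauss (Fin N) ≤ Real.exp (t ^ 2 / 2 + 2 * |t|) := by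
  have e : ∀ z, Real.exp (t * dev N z) = Real.exp (-(t * √(N:ℝ))) * Real.exp (t * √(dot z z)) := fun z => by
    rw [← Real.exp_add, dev]; ring_nf
  simp only [e]
  rcases le_total 0 t with ht | ht
  · obtain ⟨hi, hb⟩ := upper_tail hN ht
    refine ⟨hi.const_mul _, ?_⟩
    rw [integral_const_mul]
    refine (mul_le_mul_of_nonneg_left hb (Real.exp_pos _).le).trans ?_
    rw [← Real.exp_add, Real.exp_le_exp, abs_of_nonneg ht]
    linarith
  · have hi : Integrable (fun z => Real.exp (t * √(dot z z))) (gauss (Fin N)) :=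
      Integrable.of_bound (Continuous.aestronglyMeasurable (by unfold dot; fun_prop)) 1
        (Eventually.of_forall fun z => by
          rw [Real.norm_eq_abs, Real.abs_exp, Real.exp_le_one_iff]
          exact mul_nonpos_of_nonpos_of_nonneg ht (Real.sqrt_nonneg _))
    refine ⟨hi.const_mul _, ?_⟩
    rw [integral_const_mul]
    have hb := lower_tail hN (τ := -t) (by linarith)
    simp only [neg_mul, neg_neg] at hb
    refine (mul_le_mul_of_nonneg_left hb (Real.exp_pos _).le).trans ?_
    rw [← Real.exp_add, Real.exp_le_exp, abs_of_nonpos ht]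
    have h1 : √(N:ℝ) ≤ √((N:ℝ) - 1) + 1 := by
      have hN1 : (0:ℝ) ≤ (N:ℝ) - 1 := by
        have : (1:ℝ) ≤ N := by exact_mod_cast hN
        linarith
      rw [Real.sqrt_le_left (by positivity), add_sq, Real.sq_sqrt hN1]
      linarith [mul_nonneg zero_le_two (Real.sqrt_nonneg ((N:ℝ) - 1))]
    have := mul_le_mul_of_nonneg_left h1 (neg_nonneg.2 ht)
    linarith [neg_sq t]

lemma dev_moment (hN : 0 < N) :
    Integrable (fun z => Real.exp (dev N z ^ 2 / 8)) (gauss (Fin N)) ∧
      ∫ z, Real.exp (dev N z ^ 2 / 8) ∂gauss (Fin N) ≤ 2 * Real.exp 2 := by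
  have hi : Integrable (fun z => Real.exp (dev N z ^ 2 / 8)) (gauss (Fin N)) := by
    obtain ⟨h1, -⟩ := exp_sumsq (ι := Fin N) (s := 1 / 4) (by norm_num)
    refine (h1.const_mul (Real.exp ((N:ℝ) / 4))).mono'
      ((continuous_dev.pow 2).div_const 8).rexp.aestronglyMeasurable (Eventually.of_forall fun z => ?_)
    rw [Real.norm_eq_abs, Real.abs_exp, ← Real.exp_add, Real.exp_le_exp, dev]
    have a := Real.sq_sqrt (dot_self_nonneg z)
    have b := Real.sq_sqrt (Nat.cast_nonneg (α := ℝ) N)
    have c : ∑ k, z k ^ 2 = dot z z := by simp [dot, sq]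
    rw [c]
    nlinarith [sq_nonneg (√(dot z z) + √(N:ℝ))]
  have e : ∀ z, Real.exp (dev N z ^ 2 / 8) = ∫ y, Real.exp (dev N z / 2 * y) ∂gaussianReal 0 1 := fun z => by
    have := congrFun (mgf_id_gaussianReal (μ := 0) (v := 1)) (dev N z / 2)
    simp only [mgf, id, NNReal.coe_one, zero_mul, zero_add, one_mul] at this
    rw [this]; ring_nf
  have hp : Integrable (fun p : (Fin N → ℝ) × ℝ => Real.exp (dev N p.1 / 2 * p.2))
      ((gauss (Fin N)).prod (gaussianReal 0 1)) := by
    have hc : Continuous fun p : (Fin N → ℝ) × ℝ => Real.exp (dev N p.1 / 2 * p.2) :=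
      (((continuous_dev.comp continuous_fst).div_const 2).mul continuous_snd).rexp
    refine (integrable_prod_iff hc.aestronglyMeasurable).2
      ⟨Eventually.of_forall fun z => integrable_exp_mul_gaussianReal (μ := 0) (v := 1) (dev N z / 2), ?_⟩
    refine hi.congr (Eventually.of_forall fun z => ?_)
    simp only [Real.norm_eq_abs, Real.abs_exp]
    exact e z
  refine ⟨hi, ?_⟩
  obtain ⟨h4, h4v⟩ := integral_exp_mul_sq (s := 1 / 4) (by norm_num)
  calc ∫ z, Real.exp (dev N z ^ 2 / 8) ∂gauss (Fin N)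
      = ∫ y, ∫ z, Real.exp (dev N z / 2 * y) ∂gauss (Fin N) ∂gaussianReal 0 1 := by
        simp only [e]; exact integral_integral_swap hp
    _ ≤ ∫ y, Real.exp 2 * Real.exp (1 / 4 * y ^ 2) ∂gaussianReal 0 1 := by
        refine integral_mono hp.integral_prod_right (h4.const_mul _) fun y => ?_
        have he : ∀ z, dev N z / 2 * y = y / 2 * dev N z := fun z => by ring
        simp only [he]
        refine (dev_linear hN (y / 2)).2.trans ?_
        rw [← Real.exp_add, Real.exp_le_exp, abs_div, abs_two]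
        nlinarith [sq_nonneg (|y| - 4), sq_abs y]
    _ ≤ 2 * Real.exp 2 := by
        rw [integral_const_mul, h4v, mul_comm]
        refine mul_le_mul_of_nonneg_right ?_ (Real.exp_pos _).le
        rw [inv_le_comm₀ (Real.sqrt_pos.2 (by norm_num)) two_pos]
        exact Real.le_sqrt_of_sq_le (by norm_num)

end Vale.Agent.P157.RS.Sph
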