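import Vale.Agent.P157.RS.Sph.Law

/-! The exponential tilt of one coordinate of the sphere. -/

open MeasureTheory ProbabilityTheory Set Filter
open scoped Topology
open Vale.Agent.P150 (gauss dot)
open Vale.Agent.P157.Lim

namespace Vale.Agent.P157.RS.Sph

set_option linter.unusedSectionVars false

variable {N : ℕ}

/-- a fixed axis -/
def e0 (N : ℕ) : Fin N → ℝ := fun i => if (i : ℕ) = 0 then 1 else 0

lemma dot_e0 (hN : 0 < N) : dot (e0 N) (e0 N) = 1 := by
  rw [dot, Finset.sum_eq_single (⟨0, hN⟩ : Fin N)]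
  · simp [e0]
  · intro i _ hi
    have : (i : ℕ) ≠ 0 := fun h => hi (Fin.ext h)
    simp [e0, this]
  · simp

lemma ae_abs_dot_le (hN : 0 < N) {e : Fin N → ℝ} (he : dot e e = 1) :
    ∀ᵐ x ∂dirLaw (Fin N), |dot e x| ≤ 1 := by
  have : Nonempty (Fin N) := ⟨⟨0, hN⟩⟩
  filter_upwards [dirLaw_unit (ι := Fin N)] with x hx
  have h := cauchy e x
  rwa [he, hx, Real.sqrt_one, one_mul] at h

lemma integrable_coord (hN : 0 < N) {e : Fin N → ℝ} (he : dot e e = 1) {G : ℝ → ℝ} (hG : Continuous G) :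
    Integrable (fun x => G (dot e x)) (dirLaw (Fin N)) := by
  obtain ⟨C, hC⟩ := (isCompact_Icc (a := (-1:ℝ)) (b := 1)).exists_bound_of_continuousOn hG.continuousOn
  exact Integrable.of_bound (hG.comp (by unfold dot; fun_prop)).aestronglyMeasurable C
    ((ae_abs_dot_le hN he).mono fun x hx => hC _ (abs_le.1 hx))

/-- tilted moments of the first coordinate -/
noncomputable def mom (N k : ℕ) (a : ℝ) : ℝ :=
  ∫ x, dot (e0 N) x ^ k * Real.exp (a * dot (e0 N) x) ∂dirLaw (Fin N)

/-- mean of the tilted coordinate -/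
noncomputable def mean (N : ℕ) (a : ℝ) : ℝ := mom N 1 a / mom N 0 a

/-- log normalisation of the tilt -/
noncomputable def lam (N : ℕ) (a : ℝ) : ℝ := Real.log (mom N 0 a)

/-- variance of the tilted coordinate -/
noncomputable def var (N : ℕ) (a : ℝ) : ℝ := mom N 2 a / mom N 0 a - mean N a ^ 2

variable (hN : 2 ≤ N)
include hN

lemma mom_zero_pos (a : ℝ) : 0 < mom N 0 a := by
  have hi := integrable_coord (G := fun u => Real.exp (a * u)) (show 0 < N by omega) (dot_e0 (by omega)) (by fun_prop)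
  have h : ∫ x, Real.exp (-|a|) ∂dirLaw (Fin N) ≤ ∫ x, Real.exp (a * dot (e0 N) x) ∂dirLaw (Fin N) := by
    refine integral_mono_ae (integrable_const _) hi ((ae_abs_dot_le (show 0 < N by omega) (dot_e0 (by omega))).mono
      fun x hx => Real.exp_le_exp.2 ?_)
    have : |a * dot (e0 N) x| ≤ |a| := by rw [abs_mul]; exact mul_le_of_le_one_right (abs_nonneg a) hx
    linarith [(abs_le.1 this).1]
  simp only [mom, pow_zero, one_mul]
  exact lt_of_lt_of_le (by simp [Real.exp_pos]) h

lemma hasDeriv_mom (k : ℕ) (a : ℝ) : HasDerivAt (mom N k) (mom N (k + 1) a) a := by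
  have hN0 : 0 < N := by omega
  refine (hasDerivAt_integral_of_dominated_loc_of_deriv_le (bound := fun _ => Real.exp (|a| + 1))
    (F := fun b x => dot (e0 N) x ^ k * Real.exp (b * dot (e0 N) x))
    (F' := fun b x => dot (e0 N) x ^ (k + 1) * Real.exp (b * dot (e0 N) x)) (Metric.ball_mem_nhds a one_pos)
    (Eventually.of_forall fun b => (Continuous.aestronglyMeasurable (by unfold dot; fun_prop)))
    (integrable_coord (G := fun u => u ^ k * Real.exp (a * u)) hN0 (dot_e0 hN0) (by fun_prop))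
    (Continuous.aestronglyMeasurable (by unfold dot; fun_prop)) ?_ (integrable_const _)
    (Eventually.of_forall fun x b _ => ?_)).2
  · filter_upwards [ae_abs_dot_le hN0 (dot_e0 hN0)] with x hx b hb
    rw [Metric.mem_ball, Real.dist_eq] at hb
    rw [Real.norm_eq_abs, abs_mul, Real.abs_exp, abs_pow]
    refine (mul_le_of_le_one_left (Real.exp_pos _).le (pow_le_one₀ (abs_nonneg _) hx)).trans
      (Real.exp_le_exp.2 ((le_abs_self _).trans ?_))
    rw [abs_mul]
    refine (mul_le_of_le_one_right (abs_nonneg b) hx).trans ?_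
    linarith [abs_sub_abs_le_abs_sub b a]
  · exact ((((hasDerivAt_id' b).mul_const (dot (e0 N) x)).exp).const_mul _).congr_deriv (by ring)

lemma hasDeriv_lam (a : ℝ) : HasDerivAt (lam N) (mean N a) a :=
  (hasDeriv_mom hN 0 a).log (mom_zero_pos hN a).ne'

lemma hasDeriv_mean (a : ℝ) : HasDerivAt (mean N) (var N a) a := by
  refine ((hasDeriv_mom hN 1 a).div (hasDeriv_mom hN 0 a) (mom_zero_pos hN a).ne').congr_deriv ?_
  have := (mom_zero_pos hN a).ne'
  simp only [var, mean]; field_simp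

lemma stein_one' (a : ℝ) : ((N:ℝ) - 1) * mom N 1 a = a * (mom N 0 a - mom N 2 a) := by
  have hN0 : 0 < N := by omega
  have he := dot_e0 hN0
  have h := stein hN0 he (G := fun u => Real.exp (a * u)) (G' := fun u => a * Real.exp (a * u))
    (fun u => (((hasDerivAt_id' u).const_mul a).exp).congr_deriv (by ring)) (by fun_prop)
  have i0 := integrable_coord (G := fun u => u * Real.exp (a * u)) hN0 he (by fun_prop)
  have i2 := integrable_coord (G := fun u => (1 - u ^ 2) * (a * Real.exp (a * u))) hN0 he (by fun_prop)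
  rw [integral_add i0 i2] at h
  have e2 : ∫ x, (1 - dot (e0 N) x ^ 2) * (a * Real.exp (a * dot (e0 N) x)) ∂dirLaw (Fin N) =
      a * (mom N 0 a - mom N 2 a) := by
    simp only [mom]
    rw [← integral_sub (integrable_coord (G := fun u => u ^ 0 * Real.exp (a * u)) hN0 he (by fun_prop))
      (integrable_coord (G := fun u => u ^ 2 * Real.exp (a * u)) hN0 he (by fun_prop)), ← integral_const_mul]
    exact integral_congr_ae (Eventually.of_forall fun x => by ring)
  simp only [mom, pow_one] at *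
  rw [← e2]; linarith

lemma abs_mean_le_one (a : ℝ) : |mean N a| ≤ 1 := by
  have hN0 : 0 < N := by omega
  rw [mean, abs_div, abs_of_pos (mom_zero_pos hN a), div_le_one (mom_zero_pos hN a)]
  refine abs_integral_le_integral_abs.trans (integral_mono_ae
    (integrable_coord (G := fun u => |u ^ 1 * Real.exp (a * u)|) hN0 (dot_e0 hN0) (by fun_prop))
    (integrable_coord (G := fun u => u ^ 0 * Real.exp (a * u)) hN0 (dot_e0 hN0) (by fun_prop))
    ((ae_abs_dot_le hN0 (dot_e0 hN0)).mono fun x hx => ?_))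
  simp only [pow_one, pow_zero, one_mul, abs_mul, Real.abs_exp]
  exact mul_le_of_le_one_left (Real.exp_pos _).le hx

omit hN

/-- saddle of the tilt at field `ρ` per coordinate -/
noncomputable def cf (ρ : ℝ) : ℝ := 2 * ρ / (1 + √(1 + 4 * ρ ^ 2))

lemma cf_nonneg {ρ : ℝ} (h : 0 ≤ ρ) : 0 ≤ cf ρ := by unfold cf; positivity

lemma cf_spec (ρ : ℝ) : ρ * (1 - cf ρ ^ 2) = cf ρ := by
  have h := Real.mul_self_sqrt (show 0 ≤ 1 + 4 * ρ ^ 2 by positivity)
  have : 1 + √(1 + 4 * ρ ^ 2) ≠ 0 := by positivity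
  unfold cf
  generalize √(1 + 4 * ρ ^ 2) = r at h this ⊢
  field_simp
  linear_combination ρ * h

/-- two saddles differ by at most the fields -/
lemma saddle_dist {ρ σ c d : ℝ} (hσ : 0 ≤ σ) (hc : 0 ≤ c) (hd : 0 ≤ d) (hρ : 0 ≤ ρ) (h1 : ρ * (1 - c ^ 2) = c)
    (h2 : σ * (1 - d ^ 2) = d) : |c - d| ≤ |ρ - σ| := by
  have e : (c - d) * (1 + σ * (c + d)) = (ρ - σ) * (1 - c ^ 2) := by linear_combination (norm := ring) h2 - h1
  have h3 : 0 ≤ σ * (c + d) := mul_nonneg hσ (add_nonneg hc hd)
  have h4 : 0 ≤ 1 - c ^ 2 := by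
    rcases hρ.eq_or_lt with rfl | hp
    · simp at h1; subst h1; norm_num
    · exact nonneg_of_mul_nonneg_right (by rw [h1]; exact hc) hp
  calc |c - d| ≤ |c - d| * (1 + σ * (c + d)) := le_mul_of_one_le_right (abs_nonneg _) (by linarith)
    _ = |ρ - σ| * (1 - c ^ 2) := by
        conv_lhs => rw [← abs_of_nonneg (show 0 ≤ 1 + σ * (c + d) by linarith), ← abs_mul, e, abs_mul,
          abs_of_nonneg h4]
    _ ≤ |ρ - σ| := mul_le_of_le_one_right (abs_nonneg _) (by nlinarith)

include hN

lemma mean_nonneg {a : ℝ} (ha : 0 ≤ a) : 0 ≤ mean N a := by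
  have hN0 : 0 < N := by omega
  have h := stein_one' hN a
  have h2 : mom N 2 a ≤ mom N 0 a := integral_mono_ae
    (integrable_coord (G := fun u => u ^ 2 * Real.exp (a * u)) hN0 (dot_e0 hN0) (by fun_prop))
    (integrable_coord (G := fun u => u ^ 0 * Real.exp (a * u)) hN0 (dot_e0 hN0) (by fun_prop))
    ((ae_abs_dot_le hN0 (dot_e0 hN0)).mono fun x hx => by
      dsimp only
      rw [pow_zero, one_mul, ← sq_abs]
      exact mul_le_of_le_one_left (Real.exp_pos _).le (pow_le_one₀ (abs_nonneg _) hx))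
  have hN1 : (0:ℝ) < (N:ℝ) - 1 := by
    have : (2:ℝ) ≤ N := by exact_mod_cast hN
    linarith
  refine div_nonneg (nonneg_of_mul_nonneg_right ?_ hN1) (mom_zero_pos hN a).le
  rw [h]; exact mul_nonneg ha (by linarith)

lemma var_bound {a : ℝ} (ha : 0 ≤ a) :
    0 ≤ var N a ∧ var N a ≤ 2 / ((N:ℝ) - 1) ∧
      |mean N a - cf (a / ((N:ℝ) - 1))| ≤ a / ((N:ℝ) - 1) * (2 / ((N:ℝ) - 1)) := by
  have hN0 : 0 < N := by omega
  have he := dot_e0 hN0
  have hm : (0:ℝ) < (N:ℝ) - 1 := by
    have : (2:ℝ) ≤ N := by exact_mod_cast hN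
    linarith
  set m := (N:ℝ) - 1 with hmdef
  set ρ := a / m with hρdef
  have hρ : 0 ≤ ρ := by positivity
  have haρ : a = m * ρ := by simp only [ρ]; field_simp
  set c := cf ρ
  have hc : 0 ≤ c := cf_nonneg hρ
  have hspec : ρ * (1 - c ^ 2) = c := cf_spec ρ
  set M0 := mom N 0 a
  have h0 : 0 < M0 := mom_zero_pos hN a
  have i : ∀ {G : ℝ → ℝ}, Continuous G → Integrable (fun x => G (dot (e0 N) x)) (dirLaw (Fin N)) :=
    fun hG => integrable_coord hN0 he hG
  have quad : ∀ b : ℝ, ∫ x, (dot (e0 N) x - b) ^ 2 * Real.exp (a * dot (e0 N) x) ∂dirLaw (Fin N) =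
      mom N 2 a - 2 * b * mom N 1 a + b ^ 2 * M0 := fun b => by
    have e : ∀ u : ℝ, (u - b) ^ 2 * Real.exp (a * u) =
        (u ^ 2 * Real.exp (a * u) - 2 * b * (u ^ 1 * Real.exp (a * u))) + b ^ 2 * (u ^ 0 * Real.exp (a * u)) :=
      fun u => by ring
    simp only [e]
    have I : ∀ k, Integrable (fun x => dot (e0 N) x ^ k * Real.exp (a * dot (e0 N) x)) (dirLaw (Fin N)) :=
      fun k => i (G := fun u => u ^ k * Real.exp (a * u)) (by fun_prop)
    rw [integral_add ((I 2).sub' ((I 1).const_mul _)) ((I 0).const_mul _), integral_sub (I 2) ((I 1).const_mul _),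
      integral_const_mul, integral_const_mul]
    rfl
  set Q := ∫ x, (dot (e0 N) x - c) ^ 2 * Real.exp (a * dot (e0 N) x) ∂dirLaw (Fin N)
  have hQ : Q ≤ 2 / m * M0 := by
    have h := stein hN0 he (G := fun u => (u - c) * Real.exp (a * u))
      (G' := fun u => Real.exp (a * u) + (u - c) * (a * Real.exp (a * u)))
      (fun u => (((hasDerivAt_id' u).sub_const c).mul ((hasDerivAt_id' u).const_mul a).exp).congr_deriv (by ring))
      (by fun_prop)
    rw [← integral_const_mul] at h
    have e : ∫ x, ((dot (e0 N) x - c) ^ 2 * (m + a * (dot (e0 N) x + c))) * Real.exp (a * dot (e0 N) x)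
        ∂dirLaw (Fin N) = ∫ x, (1 - dot (e0 N) x ^ 2) * Real.exp (a * dot (e0 N) x) ∂dirLaw (Fin N) := by
      have hk : ∀ u : ℝ, ((u - c) ^ 2 * (m + a * (u + c))) * Real.exp (a * u) - (1 - u ^ 2) * Real.exp (a * u) =
          (N:ℝ) * (u * ((u - c) * Real.exp (a * u))) - (u * ((u - c) * Real.exp (a * u)) +
            (1 - u ^ 2) * (Real.exp (a * u) + (u - c) * (a * Real.exp (a * u)))) := fun u => by
        rw [haρ, hmdef]
        linear_combination (m * (u - c) * Real.exp (m * ρ * u)) * hspec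
      refine sub_eq_zero.1 ?_
      rw [← integral_sub (i (G := fun u => ((u - c) ^ 2 * (m + a * (u + c))) * Real.exp (a * u)) (by fun_prop))
        (i (G := fun u => (1 - u ^ 2) * Real.exp (a * u)) (by fun_prop))]
      simp only [hk]
      rw [integral_sub (i (G := fun u => (N:ℝ) * (u * ((u - c) * Real.exp (a * u)))) (by fun_prop))
        (i (G := fun u => u * ((u - c) * Real.exp (a * u)) +
          (1 - u ^ 2) * (Real.exp (a * u) + (u - c) * (a * Real.exp (a * u)))) (by fun_prop)), h, sub_self]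
    have hfac : ∀ u : ℝ, -1 ≤ u → m / 2 ≤ m + a * (u + c) := fun u hu => by
      have h1 : ρ * (1 - c) ≤ 1 / 2 := by
        by_contra hh
        push Not at hh
        have := mul_lt_mul_of_pos_right hh (show 0 < 1 + c by linarith)
        have hc1 : c ≤ 1 := by
          nlinarith [hspec]
        nlinarith [hspec]
      have h2 := mul_le_mul_of_nonneg_left (show -(1 - c) ≤ u + c by linarith) ha
      have h3 := mul_le_mul_of_nonneg_left h1 hm.le
      rw [haρ] at h2 ⊢
      linarith
    have low : m / 2 * Q ≤ M0 := by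
      calc m / 2 * Q = ∫ x, m / 2 * ((dot (e0 N) x - c) ^ 2 * Real.exp (a * dot (e0 N) x)) ∂dirLaw (Fin N) :=
            (integral_const_mul _ _).symm
        _ ≤ ∫ x, ((dot (e0 N) x - c) ^ 2 * (m + a * (dot (e0 N) x + c))) * Real.exp (a * dot (e0 N) x)
              ∂dirLaw (Fin N) := by
            refine integral_mono_ae (i (G := fun u => m / 2 * ((u - c) ^ 2 * Real.exp (a * u))) (by fun_prop))
              (i (G := fun u => ((u - c) ^ 2 * (m + a * (u + c))) * Real.exp (a * u)) (by fun_prop)) ((ae_abs_dot_le hN0 he).mono fun x hx => ?_)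
            calc m / 2 * ((dot (e0 N) x - c) ^ 2 * Real.exp (a * dot (e0 N) x))
                ≤ (m + a * (dot (e0 N) x + c)) * ((dot (e0 N) x - c) ^ 2 * Real.exp (a * dot (e0 N) x)) :=
                  mul_le_mul_of_nonneg_right (hfac _ (abs_le.1 hx).1) (by positivity)
              _ = _ := by ring
        _ ≤ M0 := by
            rw [e]
            refine integral_mono (i (G := fun u => (1 - u ^ 2) * Real.exp (a * u)) (by fun_prop))
              (i (G := fun u => u ^ 0 * Real.exp (a * u)) (by fun_prop)) fun x => ?_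
            simp only [pow_zero, one_mul]
            exact mul_le_of_le_one_left (Real.exp_pos _).le (by nlinarith [sq_nonneg (dot (e0 N) x)])
    rw [div_mul_eq_mul_div, le_div_iff₀ hm]; linarith
  have v0 : 0 ≤ var N a := by
    have h := integral_nonneg (μ := dirLaw (Fin N)) (f := fun x =>
      (dot (e0 N) x - mean N a) ^ 2 * Real.exp (a * dot (e0 N) x)) (fun x => by positivity)
    rw [quad] at h
    have e : var N a * M0 = mom N 2 a - 2 * mean N a * mom N 1 a + mean N a ^ 2 * M0 := by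
      have := (mom_zero_pos hN a).ne'
      simp only [var, mean, M0]; field_simp; ring
    exact nonneg_of_mul_nonneg_left (e ▸ h) h0
  have v1 : var N a ≤ 2 / m := by
    refine le_of_mul_le_mul_right (le_trans ?_ hQ) h0
    rw [show Q = _ from quad c]
    have e : mom N 2 a - 2 * c * mom N 1 a + c ^ 2 * M0 - var N a * M0 = M0 * (mean N a - c) ^ 2 := by
      have := (mom_zero_pos hN a).ne'
      simp only [var, mean, M0]; field_simp; ring
    linarith [mul_nonneg h0.le (sq_nonneg (mean N a - c))]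
  refine ⟨v0, v1, ?_⟩
  set μ := mean N a
  have hs := stein_one' hN a
  have e : (μ - c) * (1 + ρ * (μ + c)) = -(ρ * var N a) := by
    have := (mom_zero_pos hN a).ne'
    have e1 : mom N 1 a = μ * M0 := by simp only [μ, mean, M0]; field_simp
    have e2 : mom N 2 a = (var N a + μ ^ 2) * M0 := by simp only [μ, var, M0]; field_simp; ring
    rw [e1, e2, ← hmdef] at hs
    have h : μ = ρ * (1 - var N a - μ ^ 2) := by
      rw [hρdef, div_mul_eq_mul_div, eq_div_iff hm.ne']
      exact mul_right_cancel₀ h0.ne' (by linear_combination hs)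
    linear_combination h + hspec
  have hμ : 0 ≤ μ := mean_nonneg hN ha
  calc |μ - c| ≤ |μ - c| * (1 + ρ * (μ + c)) :=
        le_mul_of_one_le_right (abs_nonneg _) (by nlinarith)
    _ = ρ * var N a := by
        conv_lhs => rw [← abs_of_nonneg (show 0 ≤ 1 + ρ * (μ + c) by positivity), ← abs_mul, e, abs_neg,
          abs_of_nonneg (mul_nonneg hρ v0)]
    _ ≤ _ := mul_le_mul_of_nonneg_left v1 hρ

lemma mean_zero : mean N 0 = 0 := by
  have h := stein_one' hN 0
  have hm : ((N:ℝ) - 1) ≠ 0 := by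
    have : (2:ℝ) ≤ N := by exact_mod_cast hN
    linarith
  have : mom N 1 0 = 0 := by simpa [hm] using h
  simp [mean, this]

/-- quadratic upper bound for the log normalisation of a tilt in any direction -/
lemma log_tilt_le {e : Fin N → ℝ} (he : dot e e = 1) {a : ℝ} (ha : 0 ≤ a) (w : Fin N → ℝ) :
    Real.log (∫ x, Real.exp (dot (fun i => a * e i + w i) x) ∂dirLaw (Fin N)) ≤
      lam N a + mean N a * dot e w + dot w w / ((N:ℝ) - 1) := by
  have hN0 : 0 < N := by omega
  have hm : (0:ℝ) < (N:ℝ) - 1 := by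
    have : (2:ℝ) ≤ N := by exact_mod_cast hN
    linarith
  set v := fun i => a * e i + w i
  set s := √(dot v v)
  have hs : 0 ≤ s := Real.sqrt_nonneg _
  obtain ⟨e', he', hv⟩ : ∃ e', dot e' e' = 1 ∧ v = fun i => s * e' i := by
    rcases hs.eq_or_lt with h | h
    · refine ⟨e, he, funext fun i => ?_⟩
      have h0 : dot v v = 0 := le_antisymm (Real.sqrt_eq_zero'.1 h.symm) (dot_self_nonneg v)
      have := (Finset.sum_eq_zero_iff_of_nonneg fun i _ => mul_self_nonneg (v i)).1 h0 i (Finset.mem_univ i)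
      rw [← h, zero_mul]; exact mul_self_eq_zero.1 this
    · refine ⟨fun i => v i / s, ?_, funext fun i => by field_simp⟩
      have : dot (fun i => v i / s) (fun i => v i / s) = dot v v / (s * s) := by
        simp only [dot, div_mul_div_comm, ← Finset.sum_div]
      rw [this, Real.mul_self_sqrt (dot_self_nonneg v)]
      exact div_self (Real.sqrt_pos.1 h).ne'
  have hlam : Real.log (∫ x, Real.exp (dot v x) ∂dirLaw (Fin N)) = lam N s := by
    have e1 : ∀ x, dot v x = s * dot e' x := fun x => by rw [hv]; simp [dot, Finset.mul_sum, mul_assoc]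
    simp only [lam, mom, pow_zero, one_mul, e1]
    rw [rotate he' (dot_e0 hN0) (G := fun u => Real.exp (s * u)) (by fun_prop)]
  rw [hlam]
  set κ := 2 / ((N:ℝ) - 1) with hκ
  have d1 : ∀ t, HasDerivAt (fun t => κ / 2 * t ^ 2 - lam N t) (κ * t - mean N t) t := fun t =>
    (((hasDerivAt_pow 2 t).const_mul (κ / 2)).sub (hasDeriv_lam hN t)).congr_deriv (by push_cast; ring)
  have d2 : MonotoneOn (fun t => κ * t - mean N t) (Ici 0) := by
    refine monotoneOn_of_hasDerivWithinAt_nonneg (f' := fun t => κ - var N t) (convex_Ici 0)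
      (fun t _ => ((continuousAt_id.const_mul κ).sub (hasDeriv_mean hN t).continuousAt).continuousWithinAt)
      (fun t _ => ((((hasDerivAt_id' t).const_mul κ).sub (hasDeriv_mean hN t)).congr_deriv
        (by ring)).hasDerivWithinAt) fun t ht => ?_
    rw [interior_Ici] at ht
    linarith [(var_bound hN (le_of_lt ht)).2.1]
  have tangent : κ / 2 * a ^ 2 - lam N a + (κ * a - mean N a) * (s - a) ≤ κ / 2 * s ^ 2 - lam N s := by
    have hc : Continuous fun t => κ / 2 * t ^ 2 - lam N t := continuous_iff_continuousAt.2 fun t => (d1 t).continuousAt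
    rcases lt_trichotomy s a with h | h | h
    · obtain ⟨c, ⟨c0, c1⟩, e⟩ := exists_hasDerivAt_eq_slope _ _ h hc.continuousOn fun t _ => d1 t
      have := d2 (show c ∈ Ici 0 from hs.trans c0.le) ha c1.le
      rw [eq_div_iff (by linarith)] at e
      nlinarith
    · rw [h]; linarith
    · obtain ⟨c, ⟨c0, c1⟩, e⟩ := exists_hasDerivAt_eq_slope _ _ h hc.continuousOn fun t _ => d1 t
      have := d2 ha (show c ∈ Ici 0 from ha.trans c0.le) c0.le
      rw [eq_div_iff (by linarith)] at e
      nlinarith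
  have g0 : 0 ≤ κ * a - mean N a := by
    have := d2 (show (0:ℝ) ∈ Ici 0 from self_mem_Ici) ha ha
    simpa [mean_zero hN] using this
  have hss : s ^ 2 = a ^ 2 + 2 * a * dot e w + dot w w := by
    rw [Real.sq_sqrt (dot_self_nonneg v)]
    have : dot v v = a ^ 2 * dot e e + 2 * a * dot e w + dot w w := by
      simp only [dot, v, Finset.mul_sum, ← Finset.sum_add_distrib]
      exact Finset.sum_congr rfl fun i _ => by ring
    rw [this, he, mul_one]
  have hlow : a + dot e w ≤ s := by
    have h := cauchy e v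
    rw [he, Real.sqrt_one, one_mul] at h
    have : dot e v = a * dot e e + dot e w := by
      simp only [dot, v, Finset.mul_sum, ← Finset.sum_add_distrib]
      exact Finset.sum_congr rfl fun i _ => by ring
    rw [this, he, mul_one] at h
    exact (le_abs_self _).trans h
  have := mul_le_mul_of_nonneg_left (show dot e w ≤ s - a by linarith) g0
  rw [hss] at tangent
  have e' : dot w w / ((N:ℝ) - 1) = κ / 2 * dot w w := by rw [hκ]; ring
  linarith

/-- the tilted log normalisation at a saddle -/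
lemma lam_saddle {t : ℝ} (h0 : 0 ≤ t) (h1 : t ≤ 1 / 4) :
    |lam N (((N:ℝ) - 1) * (t / (1 - t ^ 2))) - ((N:ℝ) - 1) * (t ^ 2 / (1 - t ^ 2) + 1 / 2 * Real.log (1 - t ^ 2))|
      ≤ 1 := by
  have hm : (0:ℝ) < (N:ℝ) - 1 := by
    have : (2:ℝ) ≤ N := by exact_mod_cast hN
    linarith
  set m := (N:ℝ) - 1
  set h := fun u : ℝ => lam N (m * (u / (1 - u ^ 2))) - m * (u ^ 2 / (1 - u ^ 2) + 1 / 2 * Real.log (1 - u ^ 2))
  have hp : ∀ u ∈ Icc (0:ℝ) (1/4), 0 < 1 - u ^ 2 := fun u hu => by
    nlinarith [hu.1, hu.2]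
  have hd : ∀ u ∈ Icc (0:ℝ) (1/4), HasDerivAt h
      ((mean N (m * (u / (1 - u ^ 2))) - u) * (m * ((1 + u ^ 2) / (1 - u ^ 2) ^ 2))) u := by
    intro u hu
    have h0 := (hp u hu).ne'
    have d : HasDerivAt (fun u : ℝ => 1 - u ^ 2) (-(2 * u)) u :=
      ((hasDerivAt_pow 2 u).const_sub 1).congr_deriv (by simp)
    have da : HasDerivAt (fun u : ℝ => m * (u / (1 - u ^ 2))) (m * ((1 + u ^ 2) / (1 - u ^ 2) ^ 2)) u :=
      (((hasDerivAt_id' u).div d h0).const_mul m).congr_deriv (by ring)
    refine (((hasDeriv_lam hN _).comp u da).sub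
      ((((hasDerivAt_pow 2 u).div d h0).add ((d.log h0).const_mul (1 / 2))).const_mul m)).congr_deriv ?_
    push_cast
    field_simp
    ring
  have hb : ∀ u ∈ Icc (0:ℝ) (1/4),
      ‖(mean N (m * (u / (1 - u ^ 2))) - u) * (m * ((1 + u ^ 2) / (1 - u ^ 2) ^ 2))‖ ≤ 1 := by
    intro u hu
    have hp' := hp u hu
    have hρ : 0 ≤ u / (1 - u ^ 2) := div_nonneg hu.1 hp'.le
    have hv := (var_bound hN (a := m * (u / (1 - u ^ 2))) (mul_nonneg hm.le hρ)).2.2
    rw [mul_div_cancel_left₀ _ hm.ne'] at hv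
    have hcf : cf (u / (1 - u ^ 2)) = u := by
      have := saddle_dist hρ (cf_nonneg hρ) hu.1 hρ (cf_spec _) (show u / (1 - u ^ 2) * (1 - u ^ 2) = u by field_simp)
      simpa [sub_eq_zero] using this
    rw [hcf] at hv
    have hu2 : u ^ 2 ≤ 1 / 16 := by nlinarith [hu.1, hu.2]
    have hB : (1 + u ^ 2) / (1 - u ^ 2) ^ 2 ≤ 3 / 2 := by
      rw [div_le_iff₀ (by positivity)]; nlinarith
    have hρ1 : u / (1 - u ^ 2) ≤ 1 / 3 := by
      rw [div_le_iff₀ hp']; nlinarith [hu.1, hu.2]
    rw [Real.norm_eq_abs, abs_mul, abs_of_nonneg (show 0 ≤ m * ((1 + u ^ 2) / (1 - u ^ 2) ^ 2) by positivity)]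
    calc |mean N (m * (u / (1 - u ^ 2))) - u| * (m * ((1 + u ^ 2) / (1 - u ^ 2) ^ 2))
        ≤ u / (1 - u ^ 2) * (2 / m) * (m * (3 / 2)) :=
          mul_le_mul hv (mul_le_mul_of_nonneg_left hB hm.le) (by positivity) (by positivity)
      _ = u / (1 - u ^ 2) * 3 := by field_simp
      _ ≤ 1 := by linarith
  have key := (convex_Icc (0:ℝ) (1/4)).norm_image_sub_le_of_norm_hasDerivWithin_le
    (fun u hu => (hd u hu).hasDerivWithinAt) hb (left_mem_Icc.2 (by norm_num)) ⟨h0, h1⟩
  have hz : h 0 = 0 := by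
    have : mom N 0 0 = 1 := by simp [mom]
    simp [h, lam, this]
  rw [hz, sub_zero, sub_zero, one_mul, Real.norm_eq_abs, Real.norm_eq_abs, abs_of_nonneg h0] at key
  exact key.trans (by linarith)

end Vale.Agent.P157.RS.Sph
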